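import Vale.Agent.P207.N4.Geo.CoreR
import Vale.Agent.P207.H118.GDefs

/-!
# P207: constant curvature from the logic, for a condition on the Ricci curvature and the entropy

`LogicG` : the statement of the logic, for a lower bound `-ρ` of the trace of the Jacobi operator
with `(5 m - 1) ρ < 5 h²`. `core_of_ricent_n` : constant curvature from the logic.
-/

open scoped Manifold ContDiff ENNReal Topology Matrix
open Bundle MeasureTheory Set Filter

set_option maxSynthPendingDepth 3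
set_option linter.unusedSectionVars false

noncomputable section

namespace Vale.Agent.P207.N4

open Vale.Agent.P207.N3

variable [Dim]

/-- The statement of the logic, for a lower bound of the trace of the Jacobi operator and the
entropy. -/
def LogicG : Prop :=
  ∀ {Γ X B V : Type} [Group Γ] [MetricSpace X] [ProperSpace X] [MulAction Γ X]
    [IsIsometricSMul Γ X] [TopologicalSpace B] [CompactSpace B] [T2Space B] [MulAction Γ B]
    [ContinuousConstSMul Γ B] [MeasurableSpace B] [BorelSpace B]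
    [NormedAddCommGroup V] [NormedSpace ℝ V] [FiniteDimensional ℝ V]
    (L : Leaf Γ X B) (S : Suite L V) (_ : H618.Conn S.I S.M.U) (a b : ℝ),
    0 < a → a ≤ b →
    (∀ x v, a * ‖v‖ ^ 2 ≤ inner ℝ (S.M.U x v) v) →
    (∀ x v, inner ℝ (S.M.U x v) v ≤ b * ‖v‖ ^ 2) →
    ∀ ρ : ℝ, (∀ x, ∑ i, -inner ℝ (S.M.K x (EuclideanSpace.single i 1))
      (EuclideanSpace.single i 1) ≤ ρ) →
    (5 * (Dim.m : ℝ) - 1) * ρ < 5 * S.A.h ^ 2 → H662.Calib L S.A → NuB S.A

open Vale.Agent.P255 (RMetric Npc coefIn Gam Riem)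
open Vale.Agent.P207.N4.Q Vale.Agent.P207.Q Vale.Agent.P207.Q.H130 Vale.Agent.P207.Q.H892
open Vale.Agent.P207F (ConstCurvature RicciEntropyPinched)

variable {M : Type} [TopologicalSpace M] [ChartedSpace (EV (Dim.m + 1)) M]
  [IsManifold 𝓘(ℝ, EV (Dim.m + 1)) ∞ M]
  [CompactSpace M] [T2Space M] [ConnectedSpace M] {g : RMetric (EV (Dim.m + 1)) M}

/-- **Core**, from the logic, in the dimension `Dim.m + 1`, for a bound of the trace of `Km` and the
entropy. -/
theorem core_of_logicG (hL : LogicG) [MeasurableSpace M] [BorelSpace M]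
    (g : RMetric (EV (Dim.m + 1)) M) (hN : NegCurvature g)
    (φ : ℝ → P207.UT g → P207.UT g) (μ : Measure M) (m : Measure (P207.UT g))
    (hφ : P207.IsGeoFlow g φ) (hμ : P207.IsRiemVol g μ) (hm : P207.IsLiouville g μ m)
    (heq : P207.ksEntropy m (φ 1) = P207.topEntropy (φ 1)) {ρ : ℝ}
    (hρ : ∀ f : Fr g, (Km g f).trace ≤ ρ)
    (hQ : 0 < (P207.topEntropy (φ 1)).toReal →
      (5 * (Dim.m : ℝ) - 1) * ρ < 5 * (P207.topEntropy (φ 1)).toReal ^ 2) :
    ∃ κ, ConstCurvature g κ := by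
  obtain ⟨hsc, hne, -⟩ := Vale.Agent.P207.H582.exists_setting hφ hμ hm
  obtain ⟨lam, Lam, hl, hle, hb⟩ :=
    Vale.Agent.P207.H832.N4.exists_Km_neg (P207F.negCurvature_iff.2 hN)
  obtain ⟨D, hD1, hD2⟩ := exists_MDat_of hl hle hb hφ
  have hh := (exists_psi_N3 ((horFlows g).hor 0) D hN hφ hμ hm heq).1
  refine core_of_caseK hN hφ hμ hm heq D (fun m₀ F o S hSh hC hlo hhi hcont hKf hcal => ?_)
  rw [hD1] at hlo
  rw [hD2] at hhi
  refine hL _ S hC lam Lam hl hle hlo hhi ρ (fun x => ?_) (by rw [hSh]; exact hQ hh) hcal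
  obtain ⟨f, hf⟩ := hKf x
  refine (le_of_eq ?_).trans (hρ f)
  refine Finset.sum_congr rfl fun i _ => ?_
  rw [hf]
  simp

end Vale.Agent.P207.N4

namespace Vale.Agent.P207.N4

open Vale.Agent.P255 (RMetric coefIn Gam Riem)
open Vale.Agent.P207.Q (Fr)
open Vale.Agent.P207.Q.H130 (Km)
open Vale.Agent.P207F (ConstCurvature RicciEntropyPinched)

/-- **Core** for `RicciEntropyPinched`, from the logic, in the dimension `Dim.m + 1`. -/
theorem core_of_ricent [Dim] (hL : LogicG) {M : Type} [TopologicalSpace M]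
    [ChartedSpace (EV (Dim.m + 1)) M]
    [IsManifold 𝓘(ℝ, EV (Dim.m + 1)) ∞ M] [CompactSpace M] [T2Space M] [ConnectedSpace M]
    [MeasurableSpace M] [BorelSpace M] (g : RMetric (EV (Dim.m + 1)) M)
    (hp : RicciEntropyPinched g)
    (φ : ℝ → P207.UT g → P207.UT g) (μ : Measure M) (m : Measure (P207.UT g))
    (hφ : P207.IsGeoFlow g φ) (hμ : P207.IsRiemVol g μ) (hm : P207.IsLiouville g μ m)
    (heq : P207.ksEntropy m (φ 1) = P207.topEntropy (φ 1)) : ∃ κ, ConstCurvature g κ := by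
  obtain ⟨hN, ρ, hric, hE⟩ := hp
  have hW := P207F.wellDefined (n := Dim.m + 1) (by have := Dim.two_le; omega) g
  have h1 : φ = P207F.geoFlow g := (hW.1 φ).1 hφ
  have h4 : P207F.hTop g = P207.topEntropy (φ 1) := by rw [h1]; rfl
  refine core_of_logicG hL g (P207F.negCurvature_iff.1 hN) φ μ m hφ hμ hm heq (ρ := ρ)
    (fun f => ?_) (fun h0 => ?_)
  · have h5 := hric (f.ut 0)
    rw [ricUT_eq] at h5
    linarith
  · rw [h4] at hE
    set t := P207.topEntropy (φ 1) with ht
    have h2 : t ≠ ⊤ := by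
      intro h
      rw [h] at h0
      simp at h0
    have h3 : 5 * t ^ 2 = ENNReal.ofReal (5 * t.toReal ^ 2) := by
      rw [ENNReal.ofReal_mul (by norm_num), ENNReal.ofReal_pow ENNReal.toReal_nonneg,
        ENNReal.ofReal_toReal h2]
      norm_num
    rw [h3, ENNReal.ofReal_lt_ofReal_iff (by positivity)] at hE
    push_cast at hE
    linarith

/-- **Core** for `RicciEntropyPinched`, from the logic, in all dimensions `n ≥ 3`. -/
theorem core_of_ricent_n {n : ℕ} (hn : 3 ≤ n) (hL : ∀ [Dim], LogicG)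
    {M : Type} [TopologicalSpace M] [ChartedSpace (EV n) M]
    [IsManifold 𝓘(ℝ, EV n) ∞ M] [CompactSpace M] [T2Space M] [ConnectedSpace M]
    [MeasurableSpace M] [BorelSpace M] (g : RMetric (EV n) M)
    (hp : RicciEntropyPinched g)
    (φ : ℝ → P207.UT g → P207.UT g) (μ : Measure M) (m : Measure (P207.UT g))
    (hφ : P207.IsGeoFlow g φ) (hμ : P207.IsRiemVol g μ) (hm : P207.IsLiouville g μ m)
    (heq : P207.ksEntropy m (φ 1) = P207.topEntropy (φ 1)) : ∃ κ, ConstCurvature g κ := by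
  obtain ⟨k, rfl⟩ : ∃ k, n = k + 1 := ⟨n - 1, by omega⟩
  have h2 : 2 ≤ k := by omega
  exact @core_of_ricent (Dim.mk k h2) (@hL (Dim.mk k h2)) M _ _ _ _ _ _ _ _ g hp φ μ m
    hφ hμ hm heq

end Vale.Agent.P207.N4
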