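import Vale.Agent.P207.N4.Geo.CoreP
import Vale.Agent.P207.H118.FDefs

/-!
# P207, line N4: the entropy and the average of the Ricci curvature, lower bound

If `K ≥ -b²` and `h_L = h_top`, then `-∫ Ric(v,v) dm_L ≤ b h`.
-/

open scoped Manifold ContDiff ENNReal Topology Matrix
open Bundle MeasureTheory Set Filter

set_option maxSynthPendingDepth 3
set_option linter.unusedSectionVars false

noncomputable section

namespace Vale.Agent.P207.N4

open Vale.Agent.P207.N3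

/-- `|A x|² ≤ L x·Ax` for symmetric `0 ≤ A ≤ L` -/
theorem dot_mulVec_le {m : ℕ} {A : Matrix (Fin m) (Fin m) ℝ} (hA : Aᵀ = A) {L : ℝ} (hL : 0 < L)
    (h0 : ∀ x : Fin m → ℝ, 0 ≤ x ⬝ᵥ (A *ᵥ x)) (h1 : ∀ x : Fin m → ℝ, x ⬝ᵥ (A *ᵥ x) ≤ L * (x ⬝ᵥ x))
    (x : Fin m → ℝ) : (A *ᵥ x) ⬝ᵥ (A *ᵥ x) ≤ L * (x ⬝ᵥ (A *ᵥ x)) := by
  set y := A *ᵥ x with hy
  have hxy : x ⬝ᵥ (A *ᵥ y) = y ⬝ᵥ y := by
    rw [Matrix.dotProduct_mulVec, ← Matrix.mulVec_transpose, hA]
  have h2 := h0 (L • x - y)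
  have h3 := h1 y
  have h4 : (L • x - y) ⬝ᵥ (A *ᵥ (L • x - y)) =
      L ^ 2 * (x ⬝ᵥ y) - 2 * L * (y ⬝ᵥ y) + y ⬝ᵥ (A *ᵥ y) := by
    rw [Matrix.mulVec_sub, Matrix.mulVec_smul, ← hy]
    simp only [sub_dotProduct, dotProduct_sub, smul_dotProduct, dotProduct_smul, smul_eq_mul]
    rw [hxy]
    ring
  rw [h4] at h2
  have h5 : L * (y ⬝ᵥ y) ≤ L * (L * (x ⬝ᵥ y)) := by nlinarith
  exact le_of_mul_le_mul_left h5 hL

/-- `tr A² ≤ L tr A` for symmetric `0 ≤ A ≤ L` -/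
theorem trace_sq_le {m : ℕ} {A : Matrix (Fin m) (Fin m) ℝ} (hA : Aᵀ = A) {L : ℝ} (hL : 0 < L)
    (h0 : ∀ x : Fin m → ℝ, 0 ≤ x ⬝ᵥ (A *ᵥ x))
    (h1 : ∀ x : Fin m → ℝ, x ⬝ᵥ (A *ᵥ x) ≤ L * (x ⬝ᵥ x)) : (A * A).trace ≤ L * A.trace := by
  have h2 : ∀ i, (A * A) i i ≤ L * A i i := fun i => by
    have h3 := dot_mulVec_le hA hL h0 h1 (Pi.single i 1)
    have h4 : A *ᵥ (Pi.single i 1) = fun j => A j i := by
      funext j
      simp
    rw [h4] at h3
    have h5 : (fun j => A j i) ⬝ᵥ (fun j => A j i) = (A * A) i i := by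
      rw [Matrix.mul_apply]
      refine Finset.sum_congr rfl fun j _ => ?_
      have h6 : A i j = A j i := congrFun (congrFun hA j) i
      rw [h6]
    have h7 : (Pi.single i (1 : ℝ)) ⬝ᵥ (fun j => A j i) = A i i := by
      simp
    rw [h5, h7] at h3
    exact h3
  calc (A * A).trace = ∑ i, (A * A) i i := rfl
    _ ≤ ∑ i, L * A i i := Finset.sum_le_sum fun i _ => h2 i
    _ = L * A.trace := by
        rw [← Finset.mul_sum]
        rfl

variable [Dim]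

open Vale.Agent.P207.Q Vale.Agent.P207.Q.H130
open Vale.Agent.P207.N4.Q
open Vale.Agent.P255 (RMetric)

variable {M : Type} [TopologicalSpace M] [ChartedSpace (EV (Dim.m + 1)) M]
  [IsManifold 𝓘(ℝ, EV (Dim.m + 1)) ∞ M]
  [CompactSpace M] [T2Space M] {g : RMetric (EV (Dim.m + 1)) M}

/-- **the mean of `-Ric` is at most `Λ` times the mean of `tr U`** -/
theorem MDat.neg_ric_le [MeasurableSpace M] [BorelSpace M] {Φ : ℝ → Fr g → Fr g}
    (hΦ : IsHorFlow g (Pi.single 0 1) Φ) (D : MDat g Φ) (hL : 0 < D.Lam)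
    {φ : ℝ → UT g → UT g}
    (hφ : IsGeoFlow g φ) {μ : Measure M} {m : Measure (UT g)} (hμ : IsRiemVol g μ)
    (hm : IsLiouville g μ m) :
    -(∫ p, P207F.ricUT g p ∂m) ≤ D.Lam * ∫ p, D.t p ∂m := by
  have := hm.1
  have := compactSpace_UT g
  obtain ⟨κ, hκ, hκf⟩ := exists_ric (g := g)
  have hint : ∀ F : C(UT g, ℝ), Integrable F m := fun F =>
    Integrable.of_bound (C := ‖F‖) F.continuous.measurable.aestronglyMeasurable
      (Eventually.of_forall fun x => F.norm_coe_le_norm x)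
  have hflow : ∀ s (f : Fr g), (Φ s f).ut 0 = φ s (f.ut 0) := fun s f => hΦ.ut_eq hφ s f
  have hder : ∀ f : Fr g, HasDerivAt (fun s => D.t (φ s (f.ut 0)))
      (κ (f.ut 0) - (D.U f * D.U f).trace) 0 := by
    intro f
    have h1 := D.hasDerivAt_t f 0
    have h2 : Φ 0 f = f := hΦ.zero f
    rw [h2, ← hκf] at h1
    simpa only [hflow] using h1
  have hcU : Continuous fun f : Fr g => (D.U f * D.U f).trace :=
    (D.cont.matrix_mul D.cont).matrix_trace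
  obtain ⟨q, hq⟩ := exists_desc (g := g) (Y := ℝ) ⟨fun f => (D.U f * D.U f).trace, hcU⟩
    (fun A hA f => by
      have h1 := hder f
      have h2 := hder (Fr.rot A f)
      rw [H665.ut_rot hA] at h2
      have h3 := h1.unique h2
      simp only [ContinuousMap.coe_mk]
      linarith)
  have hq' : ∀ f : Fr g, q (f.ut 0) = (D.U f * D.U f).trace := hq
  have h0 : ∫ p, (κ - q) p ∂m = 0 := by
    refine integral_flow_zero (fun x => hφ.zero x) (fun t => mp_geo hφ hμ hm t) D.t (κ - q)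
      (fun x t => ?_)
    obtain ⟨f, rfl⟩ := H892.exists_frame_ut x
    have h1 := D.hasDerivAt_t f t
    rw [← hκf, ← hq', hflow] at h1
    simpa only [hflow, ContinuousMap.sub_apply] using h1
  have h1 : ∫ p, κ p ∂m = ∫ p, q p ∂m := by
    have h2 : ∫ p, (κ - q) p ∂m = ∫ p, κ p ∂m - ∫ p, q p ∂m := integral_sub (hint κ) (hint q)
    linarith
  have h2 : ∀ p, q p ≤ D.Lam * D.t p := by
    intro p
    obtain ⟨f, rfl⟩ := H892.exists_frame_ut p
    rw [hq', D.t_eq]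
    refine trace_sq_le (D.symm hΦ f) hL (fun x => ?_) (fun x => D.hi f x)
    exact (mul_nonneg D.ur.pos.le (H832.N4.dot_self_nonneg x)).trans (D.ur.lo f x)
  have h3 : ∫ p, q p ∂m ≤ D.Lam * ∫ p, D.t p ∂m := by
    rw [← integral_const_mul]
    exact integral_mono (hint q) ((hint D.t).const_mul _) h2
  have h7 : ∫ p, κ p ∂m = -∫ p, P207F.ricUT g p ∂m := by
    have h8 : ∫ p, κ p ∂m = ∫ p : UT g, -(P207F.ricUT g p) ∂m :=
      integral_congr_ae (Eventually.of_forall hκ)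
    exact h8.trans (integral_neg (fun p : UT g => P207F.ricUT g p))
  rw [← h7, h1]
  exact h3

/-- **`-∫ Ric(v,v) dm_L ≤ Λ h` in the case of equality** -/
theorem neg_ric_le_entropy [ConnectedSpace M] [MeasurableSpace M] [BorelSpace M]
    {Φ : ℝ → Fr g → Fr g} (hΦ : IsHorFlow g (Pi.single 0 1) Φ) (D : MDat g Φ) (hL : 0 < D.Lam)
    (hN : NegCurvature g) {φ : ℝ → UT g → UT g} (hφ : IsGeoFlow g φ) {μ : Measure M}
    {m : Measure (UT g)} (hμ : IsRiemVol g μ) (hm : IsLiouville g μ m)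
    (heq : ksEntropy m (φ 1) = topEntropy (φ 1)) :
    -(∫ p, P207F.ricUT g p ∂m) ≤ D.Lam * (topEntropy (φ 1)).toReal := by
  obtain ⟨-, h1, -⟩ := exists_psi_N3 hΦ D hN hφ hμ hm heq
  rw [← h1]
  exact D.neg_ric_le hΦ hL hφ hμ hm

end Vale.Agent.P207.N4

namespace Vale.Agent.P207.N4

open Vale.Agent.P255 (RMetric coefIn Gam Riem)
open Vale.Agent.P207.Q (Fr)
open Vale.Agent.P207.Q.H130 (Km)
open Vale.Agent.P207F (ConstCurvature RicciPinched)

/-- **Core** for `RicciPinched`, from the logic, in the dimension `Dim.m + 1`. -/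
theorem core_of_ricci [Dim] (hL : LogicH (HQ Dim.m)) {M : Type} [TopologicalSpace M]
    [ChartedSpace (EV (Dim.m + 1)) M]
    [IsManifold 𝓘(ℝ, EV (Dim.m + 1)) ∞ M] [CompactSpace M] [T2Space M] [ConnectedSpace M]
    [MeasurableSpace M] [BorelSpace M] (g : RMetric (EV (Dim.m + 1)) M)
    (hp : RicciPinched g)
    (φ : ℝ → P207.UT g → P207.UT g) (μ : Measure M) (m : Measure (P207.UT g))
    (hφ : P207.IsGeoFlow g φ) (hμ : P207.IsRiemVol g μ) (hm : P207.IsLiouville g μ m)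
    (heq : P207.ksEntropy m (φ 1) = P207.topEntropy (φ 1)) : ∃ κ, ConstCurvature g κ := by
  obtain ⟨hN', b, hb, hK, hric⟩ := hp
  have hW := P207F.wellDefined (n := Dim.m + 1) (by have := Dim.two_le; omega) g
  have h2 : μ = P207F.vol (P207F.stdB (Dim.m + 1)) g := (hW.2.1 μ).1 hμ
  have h3 : m = P207F.liou (P207F.stdB (Dim.m + 1)) g := (hW.2.2 m).1 (by rw [← h2]; exact hm)
  have hN := P207F.negCurvature_iff.1 hN'
  obtain ⟨hsc, hne, -⟩ := Vale.Agent.P207.H582.exists_setting hφ hμ hm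
  obtain ⟨lam₀, Lam₀, hl₀, hle₀, hb₀⟩ := H832.N4.exists_Km_neg (m := Dim.m) (g := g) hN'
  have hxx : ∀ x : Fin Dim.m → ℝ, 0 ≤ x ⬝ᵥ x := fun x =>
    Finset.sum_nonneg fun i _ => mul_self_nonneg (x i)
  have hl : 0 < min lam₀ b := lt_min hl₀ hb
  have hbd : ∀ (f : Fr g) (x : Fin Dim.m → ℝ),
      (min lam₀ b) ^ 2 * (x ⬝ᵥ x) ≤ x ⬝ᵥ (Km g f *ᵥ x) ∧
        x ⬝ᵥ (Km g f *ᵥ x) ≤ b ^ 2 * (x ⬝ᵥ x) := fun f x =>
    ⟨(mul_le_mul_of_nonneg_right (pow_le_pow_left₀ hl.le (min_le_left _ _) 2) (hxx x)).trans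
      (hb₀ f x).1, Km_le_of hK f x⟩
  obtain ⟨D, hD1, hD2⟩ := exists_MDat_of hl (min_le_right _ _) hbd hφ
  have h6 := neg_ric_le_entropy ((Vale.Agent.P207.Q.horFlows g).hor 0) D (by rw [hD2]; exact hb)
    hN hφ hμ hm heq
  rw [hD2, h3] at h6
  have h8 : -(∫ p, P207F.ricUT g p ∂(P207F.liou (P207F.stdB (Dim.m + 1)) g)) ≤
      b * (P207.topEntropy (φ 1)).toReal := h6
  refine core_of_logicH hL g hN φ μ m hφ hμ hm heq fun _ =>
    ⟨min lam₀ b, b, hl, min_le_right _ _, Or.inr (Or.inr ?_), hbd⟩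
  push_cast at hric
  have h7 : (2 * Dim.m - 1) * b * b < 2 * (P207.topEntropy (φ 1)).toReal * b := by
    nlinarith
  exact lt_of_mul_lt_mul_right h7 hb.le

/-- **Core** for `RicciPinched`, from the logic, in all dimensions `n ≥ 3`. -/
theorem core_of_ricci_n {n : ℕ} (hn : 3 ≤ n) (hL : ∀ [Dim], LogicH (HQ Dim.m))
    {M : Type} [TopologicalSpace M] [ChartedSpace (EV n) M]
    [IsManifold 𝓘(ℝ, EV n) ∞ M] [CompactSpace M] [T2Space M] [ConnectedSpace M]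
    [MeasurableSpace M] [BorelSpace M] (g : RMetric (EV n) M)
    (hp : RicciPinched g)
    (φ : ℝ → P207.UT g → P207.UT g) (μ : Measure M) (m : Measure (P207.UT g))
    (hφ : P207.IsGeoFlow g φ) (hμ : P207.IsRiemVol g μ) (hm : P207.IsLiouville g μ m)
    (heq : P207.ksEntropy m (φ 1) = P207.topEntropy (φ 1)) : ∃ κ, ConstCurvature g κ := by
  obtain ⟨k, rfl⟩ : ∃ k, n = k + 1 := ⟨n - 1, by omega⟩
  have h2 : 2 ≤ k := by omega
  exact @core_of_ricci (Dim.mk k h2) (@hL (Dim.mk k h2)) M _ _ _ _ _ _ _ _ g hp φ μ m hφ hμ hm heq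

end Vale.Agent.P207.N4
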