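import Vale.Agent.P207.N4.Geo.CoreR
import Vale.Agent.P207.H118.SDefs

/-!
# P207: constant curvature from the logic, for strictly pointwise quarter-pinched metrics

`LogicP` : the statement of the logic, if the eigenvalues of the Jacobi operator satisfy a relative
bound `ρ² < 4` in each frame. `core_of_logicP`, `core_of_pquarter` : constant curvature from the
logic.
-/

open scoped Manifold ContDiff ENNReal Topology Matrix
open Bundle MeasureTheory Set Filter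

set_option maxSynthPendingDepth 3
set_option linter.unusedSectionVars false

noncomputable section

namespace Vale.Agent.P207.N4

open Vale.Agent.P207.N3

variable [Dim]

/-- The statement of the logic, for a relative bound `ρ² < 4` of the Jacobi operator in each
frame. -/
def LogicP : Prop :=
  ∀ {Γ X B V : Type} [Group Γ] [MetricSpace X] [ProperSpace X] [MulAction Γ X]
    [IsIsometricSMul Γ X] [TopologicalSpace B] [CompactSpace B] [T2Space B] [MulAction Γ B]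
    [ContinuousConstSMul Γ B] [MeasurableSpace B] [BorelSpace B]
    [NormedAddCommGroup V] [NormedSpace ℝ V] [FiniteDimensional ℝ V]
    (L : Leaf Γ X B) (S : Suite L V) (_ : H618.Conn S.I S.M.U) (a b : ℝ),
    0 < a → a ≤ b →
    (∀ x v, a * ‖v‖ ^ 2 ≤ inner ℝ (S.M.U x v) v) →
    (∀ x v, inner ℝ (S.M.U x v) v ≤ b * ‖v‖ ^ 2) →
    (∀ x v, a ^ 2 * ‖v‖ ^ 2 ≤ -inner ℝ (S.M.K x v) v ∧
      -inner ℝ (S.M.K x v) v ≤ b ^ 2 * ‖v‖ ^ 2) →
    Continuous S.M.K → ∀ ρ : ℝ, 1 ≤ ρ → ρ < 2 →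
    RelK S.M (ρ ^ 2) → H662.Calib L S.A → NuB S.A

open Vale.Agent.P255 (RMetric Npc coefIn Gam Riem)
open Vale.Agent.P207.N4.Q Vale.Agent.P207.Q Vale.Agent.P207.Q.H130 Vale.Agent.P207.Q.H892
open Vale.Agent.P207F (ConstCurvature VecQuarterPinched EntropyPinched)
open Vale.Agent.P207.Q.H717 (secc)
open H465 (Deck PB Mt toMt ofMt Xt homeoMt)
open H156 (geoA Dk fl co jA)
open H607 (geoInL rieA)

variable {M : Type} [TopologicalSpace M] [ChartedSpace (EV (Dim.m + 1)) M]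
  [IsManifold 𝓘(ℝ, EV (Dim.m + 1)) ∞ M]
  [CompactSpace M] [T2Space M] [ConnectedSpace M] {g : RMetric (EV (Dim.m + 1)) M}

/-- **Core**, from the logic, in the dimension `Dim.m + 1`, for a relative bound `ρ² < 4` of the
Jacobi operator in each frame. -/
theorem core_of_logicP (hL : LogicP) [MeasurableSpace M] [BorelSpace M]
    (g : RMetric (EV (Dim.m + 1)) M) (hN : NegCurvature g)
    (φ : ℝ → P207.UT g → P207.UT g) (μ : Measure M) (m : Measure (P207.UT g))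
    (hφ : P207.IsGeoFlow g φ) (hμ : P207.IsRiemVol g μ) (hm : P207.IsLiouville g μ m)
    (heq : P207.ksEntropy m (φ 1) = P207.topEntropy (φ 1)) {ρ : ℝ} (hρ : 1 ≤ ρ)
    (hρm : ρ < 2)
    (hK : ∀ f : Fr g, ∃ c : ℝ, 0 < c ∧ ∀ x : Fin Dim.m → ℝ,
      c * (x ⬝ᵥ x) ≤ x ⬝ᵥ (Km g f *ᵥ x) ∧ x ⬝ᵥ (Km g f *ᵥ x) ≤ ρ ^ 2 * c * (x ⬝ᵥ x)) :
    ∃ κ, ConstCurvature g κ := by
  obtain ⟨hsc, hne, -⟩ := Vale.Agent.P207.H582.exists_setting hφ hμ hm
  obtain ⟨lam, Lam, hl, hle, hb⟩ :=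
    Vale.Agent.P207.H832.N4.exists_Km_neg (P207F.negCurvature_iff.2 hN)
  obtain ⟨D, hD1, hD2⟩ := exists_MDat_of hl hle hb hφ
  refine core_of_caseK hN hφ hμ hm heq D (fun m₀ F o S hSh hC hlo hhi hcont hKf hcal => ?_)
  rw [hD1] at hlo
  rw [hD2] at hhi
  have hn : ∀ v : E2, ‖v‖ ^ 2 = v.ofLp ⬝ᵥ v.ofLp := fun v => by
    rw [← real_inner_self_eq_norm_sq, H618.inner_eq_dot]
  refine hL _ S hC lam Lam hl hle hlo hhi (fun x v => ?_) hcont ρ hρ hρm (fun x => ?_) hcal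
  · obtain ⟨f, hf⟩ := hKf x
    rw [hf v, hn v]
    exact hb f v.ofLp
  · obtain ⟨f, hf⟩ := hKf x
    obtain ⟨c, hc0, hc⟩ := hK f
    refine ⟨c, hc0, fun v => ?_⟩
    rw [hf v, hn v]
    exact hc v.ofLp

end Vale.Agent.P207.N4

namespace Vale.Agent.P207.N4

open Vale.Agent.P255 (RMetric coefIn Gam Riem)
open Vale.Agent.P207.Q (Fr)
open Vale.Agent.P207.Q.H130 (Km)
open Vale.Agent.P207.Q.H717 (secc)
open Vale.Agent.P207F (ConstCurvature VecQuarterPinched QuarterPinched)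

section Km

variable {m : ℕ} {M : Type} [TopologicalSpace M] [ChartedSpace (EV (m + 1)) M]
  [IsManifold 𝓘(ℝ, EV (m + 1)) ∞ M] {g : RMetric (EV (m + 1)) M}

/-- the strict relative bound of the matrix `Km` -/
theorem Km_rel_lt (h : VecQuarterPinched g) (f : Fr g) {x y : Fin m → ℝ} (hx : x ≠ 0)
    (hy : y ≠ 0) :
    (x ⬝ᵥ (Km g f *ᵥ x)) * (y ⬝ᵥ y) < 4 * ((y ⬝ᵥ (Km g f *ᵥ y)) * (x ⬝ᵥ x)) := by
  have h2 := h.2 f.pt _ (mem_chart_target _ _) _ _ _ (H832.N4.li_sum f hx) (H832.N4.li_sum f hy)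
  rw [H832.N4.gram_sum, H832.N4.gram_sum] at h2
  rw [H832.N4.Km_quad, H832.N4.Km_quad]
  unfold secc
  linarith

/-- the relative bound in each frame, with a uniform constant `ρ² < 4` -/
theorem exists_Km_quarter [CompactSpace M] [T2Space M] [Nonempty (Fr g)] (hm : 0 < m)
    (h : VecQuarterPinched g) : ∃ ρ : ℝ, 1 ≤ ρ ∧ ρ < 2 ∧ ∀ f : Fr g, ∃ c : ℝ, 0 < c ∧
      ∀ x : Fin m → ℝ, c * (x ⬝ᵥ x) ≤ x ⬝ᵥ (Km g f *ᵥ x) ∧
        x ⬝ᵥ (Km g f *ᵥ x) ≤ ρ ^ 2 * c * (x ⬝ᵥ x) := by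
  obtain ⟨lam, Lam, hl, hle, hb⟩ := H832.N4.exists_Km_neg (m := m) (g := g) h.1
  have hL : 0 < Lam := hl.trans_le hle
  set Sp : Set (Fin m → ℝ) := {x : Fin m → ℝ | x ⬝ᵥ x = 1} with hSp
  have hne : Sp.Nonempty := ⟨Pi.single ⟨0, hm⟩ 1, by simp [hSp, dotProduct, Pi.single_apply]⟩
  have hcf : Continuous fun f : Fr g => Km g f := H832.N4.continuous_KmM
  have hq : ∀ p : Fr g × (Fin m → ℝ) × (Fin m → ℝ) → Fin m → ℝ, Continuous p →
      Continuous fun q : Fr g × (Fin m → ℝ) × (Fin m → ℝ) => p q ⬝ᵥ (Km g q.1 *ᵥ p q) :=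
    fun p hp => Continuous.dotProduct hp
      (Continuous.matrix_mulVec (hcf.comp continuous_fst) hp)
  have hc : Continuous fun q : Fr g × (Fin m → ℝ) × (Fin m → ℝ) =>
      4 * (q.2.2 ⬝ᵥ (Km g q.1 *ᵥ q.2.2)) - q.2.1 ⬝ᵥ (Km g q.1 *ᵥ q.2.1) :=
    (continuous_const.mul (hq (fun q => q.2.2) (continuous_snd.comp continuous_snd))).sub
      (hq (fun q => q.2.1) (continuous_fst.comp continuous_snd))
  obtain ⟨q, hqs, hmin⟩ := (isCompact_univ.prod
    ((H832.N4.compact_sphere m).prod (H832.N4.compact_sphere m))).exists_isMinOn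
    ((univ_nonempty (α := Fr g)).prod (hne.prod hne)) hc.continuousOn
  have hx1 : q.2.1 ⬝ᵥ q.2.1 = 1 := hqs.2.1
  have hy1 : q.2.2 ⬝ᵥ q.2.2 = 1 := hqs.2.2
  have hx0 : q.2.1 ≠ 0 := by
    intro h0
    rw [h0] at hx1
    simp at hx1
  have hy0 : q.2.2 ≠ 0 := by
    intro h0
    rw [h0] at hy1
    simp at hy1
  set d := 4 * (q.2.2 ⬝ᵥ (Km g q.1 *ᵥ q.2.2)) - q.2.1 ⬝ᵥ (Km g q.1 *ᵥ q.2.1) with hd
  have hd0 : 0 < d := by
    have h2 := Km_rel_lt h q.1 hx0 hy0
    rw [hx1, hy1] at h2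
    rw [hd]
    linarith
  -- the constant
  set A := max 1 (4 - d / Lam ^ 2) with hA
  have hA1 : 1 ≤ A := le_max_left _ _
  have hA4 : A < 4 := max_lt (by norm_num) (by have : 0 < d / Lam ^ 2 := by positivity
                                               linarith)
  have hsq : Real.sqrt A ^ 2 = A := Real.sq_sqrt (by linarith)
  refine ⟨Real.sqrt A, ?_, ?_, fun f => ?_⟩
  · rw [show (1 : ℝ) = Real.sqrt 1 by simp]
    exact Real.sqrt_le_sqrt hA1
  · rw [show (2 : ℝ) = Real.sqrt 4 by rw [show (4 : ℝ) = 2 ^ 2 by norm_num]; simp]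
    exact Real.sqrt_lt_sqrt (by linarith) hA4
  · rw [hsq]
    have hcf : Continuous fun y : Fin m → ℝ => y ⬝ᵥ (Km g f *ᵥ y) :=
      Continuous.dotProduct continuous_id
        (Continuous.matrix_mulVec continuous_const continuous_id)
    obtain ⟨y, hy, hymin⟩ := (H832.N4.compact_sphere m).exists_isMinOn hne hcf.continuousOn
    have hyy : y ⬝ᵥ y = 1 := hy
    have hby := hb f y
    rw [hyy, mul_one, mul_one] at hby
    have hpos : 0 < y ⬝ᵥ (Km g f *ᵥ y) := lt_of_lt_of_le (by positivity) hby.1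
    refine ⟨y ⬝ᵥ (Km g f *ᵥ y), hpos, fun x => ⟨?_, ?_⟩⟩
    · have h1 := H832.N4.le_of_sphere (a := -Km g f) (c := -(y ⬝ᵥ (Km g f *ᵥ y))) (fun z hz => by
        rw [Matrix.neg_mulVec, dotProduct_neg, neg_le_neg_iff]
        exact hymin hz) x
      rw [Matrix.neg_mulVec, dotProduct_neg] at h1
      linarith
    · refine H832.N4.le_of_sphere (fun z hz => ?_) x
      have h1 : d ≤ 4 * (y ⬝ᵥ (Km g f *ᵥ y)) - z ⬝ᵥ (Km g f *ᵥ z) :=
        hmin (show (f, z, y) ∈ univ ×ˢ (Sp ×ˢ Sp) from ⟨mem_univ _, hz, hy⟩)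
      have h2 : d / Lam ^ 2 * (y ⬝ᵥ (Km g f *ᵥ y)) ≤ d := by
        rw [div_mul_eq_mul_div, div_le_iff₀ (by positivity)]
        exact mul_le_mul_of_nonneg_left hby.2 hd0.le
      have h3 : (4 - d / Lam ^ 2) * (y ⬝ᵥ (Km g f *ᵥ y)) ≤ A * (y ⬝ᵥ (Km g f *ᵥ y)) :=
        mul_le_mul_of_nonneg_right (le_max_right _ _) hpos.le
      linarith

end Km

/-- **Core** for the strictly pointwise quarter-pinched metrics, from the logic, in the dimension
`Dim.m + 1`. -/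
theorem core_of_pquarter [Dim] (hL : LogicP) {M : Type} [TopologicalSpace M]
    [ChartedSpace (EV (Dim.m + 1)) M]
    [IsManifold 𝓘(ℝ, EV (Dim.m + 1)) ∞ M] [CompactSpace M] [T2Space M] [ConnectedSpace M]
    [MeasurableSpace M] [BorelSpace M] (g : RMetric (EV (Dim.m + 1)) M)
    (hp : VecQuarterPinched g)
    (φ : ℝ → P207.UT g → P207.UT g) (μ : Measure M) (m : Measure (P207.UT g))
    (hφ : P207.IsGeoFlow g φ) (hμ : P207.IsRiemVol g μ) (hm : P207.IsLiouville g μ m)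
    (heq : P207.ksEntropy m (φ 1) = P207.topEntropy (φ 1)) : ∃ κ, ConstCurvature g κ := by
  have hm2 := Dim.two_le
  obtain ⟨hsc, hne, -⟩ := Vale.Agent.P207.H582.exists_setting hφ hμ hm
  obtain ⟨ρ, hρ, hρ2, hK⟩ := exists_Km_quarter (m := Dim.m) (g := g) (by omega) hp
  exact core_of_logicP hL g (P207F.negCurvature_iff.1 hp.1) φ μ m hφ hμ hm heq hρ hρ2 hK

/-- **Core** for the strictly pointwise quarter-pinched metrics, from the logic, in all dimensions
`n ≥ 3`. -/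
theorem core_of_pquarter_n {n : ℕ} (hn : 3 ≤ n) (hL : ∀ [Dim], LogicP)
    {M : Type} [TopologicalSpace M] [ChartedSpace (EV n) M]
    [IsManifold 𝓘(ℝ, EV n) ∞ M] [CompactSpace M] [T2Space M] [ConnectedSpace M]
    [MeasurableSpace M] [BorelSpace M] (g : RMetric (EV n) M)
    (hp : VecQuarterPinched g)
    (φ : ℝ → P207.UT g → P207.UT g) (μ : Measure M) (m : Measure (P207.UT g))
    (hφ : P207.IsGeoFlow g φ) (hμ : P207.IsRiemVol g μ) (hm : P207.IsLiouville g μ m)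
    (heq : P207.ksEntropy m (φ 1) = P207.topEntropy (φ 1)) : ∃ κ, ConstCurvature g κ := by
  obtain ⟨k, rfl⟩ : ∃ k, n = k + 1 := ⟨n - 1, by omega⟩
  have h2 : 2 ≤ k := by omega
  exact @core_of_pquarter (Dim.mk k h2) (@hL (Dim.mk k h2)) M _ _ _ _ _ _ _ _ g hp φ μ m
    hφ hμ hm heq

end Vale.Agent.P207.N4

namespace Vale.Agent.P207F.QN

open Vale.Agent.P255 (RMetric innerAt coefIn Gam Riem IsGeo)
open Vale.Agent.P207F

variable {n : ℕ} {M : Type} [TopologicalSpace M] [CompactSpace M] [T2Space M] [ConnectedSpace M]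
  [ChartedSpace (EV n) M] [IsManifold 𝓘(ℝ, EV n) ∞ M] [MeasurableSpace M] [BorelSpace M]

/-- strictly pointwise quarter-pinched metrics are strictly quarter-pinched at each tangent
vector -/
theorem PointQuarterPinched.vec {g : RMetric (EV n) M} (h : PointQuarterPinched g) :
    VecQuarterPinched g := by
  refine ⟨fun a u hu v w hvw => ?_, fun a u hu v v' w hv hv' => ?_⟩
  · obtain ⟨k, hk, h⟩ := h a u hu
    have h1 := (h v w hvw).2
    have h2 := P207.Q.H717.gramDet_pos g hu hvw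
    nlinarith
  · obtain ⟨k, hk, h⟩ := h a u hu
    have h1 := (h v w hv).1
    have h2 := (h v' w hv').2
    have h3 := P207.Q.H717.gramDet_pos g hu hv
    have h4 := P207.Q.H717.gramDet_pos g hu hv'
    have h5 : coefIn g a u (Riem (coefIn g a) u v' w w) v' * gramDet g a u v w ≤
        -k * gramDet g a u v' w * gramDet g a u v w := mul_le_mul_of_nonneg_right h2 h3.le
    have h6 : -(4 * k) * gramDet g a u v w * gramDet g a u v' w <
        coefIn g a u (Riem (coefIn g a) u v w w) v * gramDet g a u v' w :=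
      mul_lt_mul_of_pos_right h1 h4
    nlinarith

/-- the final statement for the class `EntropyPinched g ∨ VecQuarterPinched g`, from the logic -/
theorem final_pquarter (hn : 3 ≤ n)
    (hH : ∀ [P207.N4.Dim], P207.N4.LogicH (P207.N4.HQ P207.N4.Dim.m))
    (hP : ∀ [P207.N4.Dim], P207.N4.LogicP) :
    (∀ g : RMetric (EV n) M, WellDefined (stdB n) g) ∧
    ∀ g : RMetric (EV n) M, EntropyPinched g ∨ VecQuarterPinched g →
      NegCurvature g ∧ hLiou (stdB n) g ≤ hTop g ∧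
      (hLiou (stdB n) g = hTop g ↔ LocSymmetric g) ∧
      (hLiou (stdB n) g = hTop g ↔ ∃ κ : ℝ, 0 < κ ∧ ConstCurvature g κ) :=
  final_n (P := fun g : RMetric (EV n) M => EntropyPinched g ∨ VecQuarterPinched g) (by omega)
    (fun _ h => h.elim (fun h => neg_of_entropy h) fun h => h.1)
    (fun g hp φ μ m hφ hμ hm heq => hp.elim
      (fun hp => P207.N4.core_of_entropy_n hn hH g hp φ μ m hφ hμ hm heq)
      fun hp => P207.N4.core_of_pquarter_n hn hP g hp φ μ m hφ hμ hm heq)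

end Vale.Agent.P207F.QN
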