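import Vale.Agent.P207.N4.Geo.Final
import Vale.Agent.P207.FDefs3

/-!
# P207: strictly quarter-pinched metrics in all dimensions, from the logic
-/

open scoped Manifold ContDiff ENNReal Topology Matrix
open Bundle MeasureTheory Set Filter

set_option maxSynthPendingDepth 3
set_option linter.unusedSectionVars false

noncomputable section

namespace Vale.Agent.P207F.QN

open Vale.Agent.P255 (RMetric innerAt coefIn Gam Riem IsGeo)
open Vale.Agent.P207F

section Neg

variable {n : ℕ} {M : Type} [TopologicalSpace M] [ChartedSpace (EV n) M]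
  [IsManifold 𝓘(ℝ, EV n) ∞ M] {g : RMetric (EV n) M}

/-- strictly quarter-pinched metrics have negative curvature -/
theorem neg_of_quarter (h : QuarterPinched g) : NegCurvature g := by
  obtain ⟨k, hk, h⟩ := h
  intro p u hu v w hli
  have h1 := (h p u hu v w hli).2
  have h2 := P207.Q.H717.gramDet_pos g hu hli
  nlinarith

end Neg

end Vale.Agent.P207F.QN

namespace Vale.Agent.P207.N4

open Vale.Agent.P207.N3

open Vale.Agent.P255 (RMetric)
open Vale.Agent.P207.Q (Fr)
open Vale.Agent.P207F (ConstCurvature)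

/-- **Core** for strictly quarter-pinched metrics, from the logic, in dimension `Dim.m + 1`. -/
theorem core_of_quarter [Dim] (hL : LogicQ fun a b => b < 2 * a) {M : Type} [TopologicalSpace M]
    [ChartedSpace (EV (Dim.m + 1)) M]
    [IsManifold 𝓘(ℝ, EV (Dim.m + 1)) ∞ M] [CompactSpace M] [T2Space M] [ConnectedSpace M]
    [MeasurableSpace M] [BorelSpace M] (g : RMetric (EV (Dim.m + 1)) M)
    (hp : P207F.QuarterPinched g)
    (φ : ℝ → P207.UT g → P207.UT g) (μ : Measure M) (m : Measure (P207.UT g))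
    (hφ : P207.IsGeoFlow g φ) (hμ : P207.IsRiemVol g μ) (hm : P207.IsLiouville g μ m)
    (heq : P207.ksEntropy m (φ 1) = P207.topEntropy (φ 1)) : ∃ κ, ConstCurvature g κ := by
  refine core_of_logicQ hL g (P207F.negCurvature_iff.1 (P207F.QN.neg_of_quarter hp)) ?_
    φ μ m hφ hμ hm heq
  obtain ⟨lam, Lam, hl, hle, hlt, hb⟩ :=
    Vale.Agent.P207.H832.N4.exists_Km_pinched (m := Dim.m) (g := g) (c := 4) (by norm_num) hp
  exact ⟨lam, Lam, hl, hle, by nlinarith, hb⟩

/-- **Core** for strictly quarter-pinched metrics, from the logic, in all dimensions `n ≥ 3`. -/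
theorem core_of_quarter_n {n : ℕ} (hn : 3 ≤ n) (hL : ∀ [Dim], LogicQ fun a b => b < 2 * a)
    {M : Type} [TopologicalSpace M] [ChartedSpace (EV n) M]
    [IsManifold 𝓘(ℝ, EV n) ∞ M] [CompactSpace M] [T2Space M] [ConnectedSpace M]
    [MeasurableSpace M] [BorelSpace M] (g : RMetric (EV n) M)
    (hp : P207F.QuarterPinched g)
    (φ : ℝ → P207.UT g → P207.UT g) (μ : Measure M) (m : Measure (P207.UT g))
    (hφ : P207.IsGeoFlow g φ) (hμ : P207.IsRiemVol g μ) (hm : P207.IsLiouville g μ m)
    (heq : P207.ksEntropy m (φ 1) = P207.topEntropy (φ 1)) : ∃ κ, ConstCurvature g κ := by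
  obtain ⟨k, rfl⟩ : ∃ k, n = k + 1 := ⟨n - 1, by omega⟩
  have h2 : 2 ≤ k := by omega
  exact @core_of_quarter (Dim.mk k h2) (@hL (Dim.mk k h2)) M _ _ _ _ _ _ _ _ g hp φ μ m hφ hμ hm heq

end Vale.Agent.P207.N4

namespace Vale.Agent.P207F.QN

open Vale.Agent.P255 (RMetric innerAt coefIn Gam Riem IsGeo)
open Vale.Agent.P207F

variable {n : ℕ} {M : Type} [TopologicalSpace M] [CompactSpace M] [T2Space M] [ConnectedSpace M]
  [ChartedSpace (EV n) M] [IsManifold 𝓘(ℝ, EV n) ∞ M] [MeasurableSpace M] [BorelSpace M]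

/-- the final statement for strictly quarter-pinched metrics, from the core theorem -/
theorem final_quarter (hn : 3 ≤ n)
    (core : ∀ g : RMetric (EV n) M, QuarterPinched g → ∀ φ μ m, P207.IsGeoFlow g φ →
      P207.IsRiemVol g μ → P207.IsLiouville g μ m →
      P207.ksEntropy m (φ 1) = P207.topEntropy (φ 1) → ∃ κ, ConstCurvature g κ) :
    (∀ g : RMetric (EV n) M, WellDefined (stdB n) g) ∧
    ∀ g : RMetric (EV n) M, QuarterPinched g →
      NegCurvature g ∧ hLiou (stdB n) g ≤ hTop g ∧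
      (hLiou (stdB n) g = hTop g ↔ LocSymmetric g) ∧
      (hLiou (stdB n) g = hTop g ↔ ∃ κ : ℝ, 0 < κ ∧ ConstCurvature g κ) :=
  final_n (by omega) (fun _ h => neg_of_quarter h) core

end Vale.Agent.P207F.QN
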