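import Vale.Agent.P207.N4.Geo.Psi
import Vale.Agent.P207.H118.EDefs
import Vale.Agent.P207.Q.H665.Dense

/-!
# P207, line N4: the entropy and the average of the Ricci curvature

If `h_L = h_top`, then `h² ≤ -m ∫ Ric(v,v) dm_L` in dimension `m + 1` (the trace of the Riccati
equation).
-/

open scoped Manifold ContDiff ENNReal Topology Matrix
open Bundle MeasureTheory Set Filter

set_option maxSynthPendingDepth 3
set_option linter.unusedSectionVars false

noncomputable section

namespace Vale.Agent.P207.N4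

/-! ### Integrals of derivatives along a measure preserving flow -/

theorem integral_flow_zero {Ω : Type*} [TopologicalSpace Ω] [CompactSpace Ω] [MeasurableSpace Ω]
    [BorelSpace Ω] {m : Measure Ω} [IsProbabilityMeasure m] {φ : ℝ → Ω → Ω}
    (h0 : ∀ x, φ 0 x = x) (hmp : ∀ t, MeasurePreserving (φ t) m m) (f g : C(Ω, ℝ))
    (h : ∀ x t, HasDerivAt (fun s => f (φ s x)) (g (φ t x)) t) : ∫ x, g x ∂m = 0 := by
  have hint : ∀ F : C(Ω, ℝ), Integrable F m := fun F =>
    Integrable.of_bound (C := ‖F‖) F.continuous.measurable.aestronglyMeasurable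
      (Eventually.of_forall fun x => F.norm_coe_le_norm x)
  set e : ℕ → ℝ := fun n => ((n : ℝ) + 1)⁻¹ with he
  have he0 : ∀ n, 0 < e n := fun n => by simp only [he]; positivity
  have helim : Tendsto e atTop (𝓝 0) := by
    simpa [he, one_div] using (tendsto_one_div_add_atTop_nhds_zero_nat (𝕜 := ℝ))
  have helim' : Tendsto e atTop (𝓝[≠] 0) :=
    tendsto_nhdsWithin_iff.2 ⟨helim, Eventually.of_forall fun n => (he0 n).ne'⟩
  have hz : ∀ n, ∫ x, (e n)⁻¹ * (f (φ (e n) x) - f x) ∂m = 0 := by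
    intro n
    rw [integral_const_mul]
    have h1 : Integrable (fun x => f (φ (e n) x)) m := (hmp (e n)).integrable_comp_of_integrable
      (hint f)
    have h2 : ∫ x, f (φ (e n) x) ∂m = ∫ x, f x ∂m := by
      have h3 := (hmp (e n)).map_eq
      conv_rhs => rw [← h3]
      rw [integral_map (hmp (e n)).measurable.aemeasurable]
      exact f.continuous.measurable.aestronglyMeasurable
    rw [integral_sub h1 (hint f), h2, sub_self, mul_zero]
  have hlim : Tendsto (fun n => ∫ x, (e n)⁻¹ * (f (φ (e n) x) - f x) ∂m) atTop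
      (𝓝 (∫ x, g x ∂m)) := by
    apply tendsto_integral_of_dominated_convergence (fun _ => ‖g‖)
    · intro n
      have h1 : Measurable fun x => f (φ (e n) x) := f.continuous.measurable.comp (hmp _).measurable
      exact ((h1.sub f.continuous.measurable).const_mul _).aestronglyMeasurable
    · exact integrable_const _
    · intro n
      refine Eventually.of_forall fun x => ?_
      have h1 := Convex.norm_image_sub_le_of_norm_hasDerivWithin_le (s := univ) (x := (0 : ℝ))
        (y := e n) (f := fun t => f (φ t x)) (f' := fun t => g (φ t x)) (C := ‖g‖)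
        (fun t _ => (h x t).hasDerivWithinAt) (fun t _ => g.norm_coe_le_norm _) convex_univ
        (mem_univ _) (mem_univ _)
      simp only [h0, sub_zero, Real.norm_eq_abs] at h1
      rw [Real.norm_eq_abs, abs_mul, abs_inv, abs_of_pos (he0 n), inv_mul_le_iff₀ (he0 n)]
      rw [abs_of_pos (he0 n)] at h1
      linarith
    · refine Eventually.of_forall fun x => ?_
      have h1 := (h x 0).tendsto_slope_zero
      simp only [h0, zero_add, smul_eq_mul] at h1
      exact h1.comp helim'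
  simp only [hz] at hlim
  exact (tendsto_nhds_unique hlim tendsto_const_nhds)

/-! ### The Ricci curvature -/

open Vale.Agent.P255 (RMetric coefIn Riem)
open Vale.Agent.P207.Q Vale.Agent.P207.Q.H130

section Ric

variable {m : ℕ} {M : Type} [TopologicalSpace M] [ChartedSpace (EV (m + 1)) M]
  [IsManifold 𝓘(ℝ, EV (m + 1)) ∞ M] {g : RMetric (EV (m + 1)) M}

/-- the trace in the standard basis and in an orthonormal frame -/
theorem sum_coord_eq (f : Fr g) (T : EV (m + 1) →ₗ[ℝ] EV (m + 1)) :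
    ∑ i, T (P207F.stdB (m + 1) i) i = ∑ i, innerB g f.pt (T (f.e i)) (f.e i) := by
  have hinn : ∀ i j, innerB g f.pt (f.e i) (f.e j) = if i = j then 1 else 0 :=
    H832.N4.inner_ee f
  have hli : LinearIndependent ℝ (fun i => (f.e i : EV (m + 1))) := by
    rw [Fintype.linearIndependent_iff]
    intro c hc i
    have h1 : innerB g f.pt (∑ j, c j • f.e j) (f.e i) = c i := by
      simp [map_sum, map_smul, hinn]
    rw [hc] at h1
    simpa using h1.symm
  let b := basisOfLinearIndependentOfCardEqFinrank hli (by simp)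
  have hb : ∀ i, b i = f.e i := fun i => by simp [b]
  have hrepr : ∀ (w : EV (m + 1)) i, b.repr w i = innerB g f.pt w (f.e i) := by
    intro w i
    conv_rhs => rw [← b.sum_repr w]
    simp [hb, hinn, map_sum, map_smul]
  have h1 := LinearMap.trace_eq_matrix_trace ℝ b T
  have h2 := LinearMap.trace_eq_matrix_trace ℝ (EuclideanSpace.basisFun (Fin (m + 1)) ℝ).toBasis T
  rw [h1] at h2
  simp only [Matrix.trace, Matrix.diag_apply, LinearMap.toMatrix_apply, hb, hrepr] at h2
  rw [h2]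
  refine Finset.sum_congr rfl fun i _ => ?_
  simp [P207F.stdB]

/-- the Ricci curvature is minus the trace of `Km` -/
theorem ricUT_eq (f : Fr g) : P207F.ricUT g (f.ut 0) = -(Km g f).trace := by
  set u := chartAt (EV (m + 1)) f.pt f.pt with hu
  set T : EV (m + 1) →L[ℝ] EV (m + 1) :=
    (ContinuousLinearMap.apply ℝ (EV (m + 1)) (f.e 0 : EV (m + 1))) ∘L
      ((D1.curvT ((mt g).coef f.pt) u).flip (f.e 0)) with hTdef
  have hT : ∀ w, T w = D1.curvT ((mt g).coef f.pt) u w (f.e 0) (f.e 0) := fun w => rfl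
  have hR : ∀ w, Riem (coefIn g f.pt) u w (f.e 0) (f.e 0) = T w := fun w => by
    rw [hT, hu]
    exact D1.riem_mt g f.pt (mem_chart_target _ _) _ _ _
  have h1 : P207F.ricUT g (f.ut 0) = ∑ i, (T : EV (m + 1) →ₗ[ℝ] EV (m + 1))
      (P207F.stdB (m + 1) i) i := by
    refine Finset.sum_congr rfl fun i _ => ?_
    exact congrArg (fun v : EV (m + 1) => v i) (hR (P207F.stdB (m + 1) i))
  have h2 : (Km g f).trace = - ∑ i : Fin m, innerB g f.pt (T (f.e i.succ)) (f.e i.succ) := by
    rw [← Finset.sum_neg_distrib]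
    refine Finset.sum_congr rfl fun i _ => ?_
    have e1 : (Km g f).diag i = -(mt g).coef f.pt (chartAt (EV (m + 1)) f.pt f.pt)
      (D1.curvT ((mt g).coef f.pt) (chartAt (EV (m + 1)) f.pt f.pt) (f.e i.succ) (f.e 0) (f.e 0))
        (f.e i.succ) := rfl
    rw [e1, ← hu, ← hT]
    have e2 : ∀ a b : EV (m + 1), (mt g).coef f.pt u a b = innerB g f.pt a b := fun a b => by
      rw [hu, ← H717.coefIn_self' (g := g)]
      rfl
    rw [e2]
  rw [h1, sum_coord_eq f, Fin.sum_univ_succ, h2, neg_neg]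
  have h3 : T (f.e 0) = 0 := by
    rw [hT]
    simp [D1.curvT]
  simp [h3]

/-- the Ricci curvature is continuous -/
theorem exists_ric [CompactSpace M] [T2Space M] :
    ∃ κ : C(UT g, ℝ), (∀ p, κ p = -P207F.ricUT g p) ∧ ∀ f : Fr g, κ (f.ut 0) = (Km g f).trace := by
  have hc : Continuous fun f : Fr g => (Km g f).trace :=
    H832.N4.continuous_KmM.matrix_trace
  obtain ⟨κ, hκ⟩ := exists_desc (g := g) (Y := ℝ) ⟨fun f => (Km g f).trace, hc⟩ (fun A hA f => by
    have h1 := ricUT_eq (g := g) f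
    have h2 := ricUT_eq (g := g) (Fr.rot A f)
    rw [H665.ut_rot hA, h1, neg_inj] at h2
    exact h2.symm)
  refine ⟨κ, fun p => ?_, hκ⟩
  obtain ⟨f, rfl⟩ := H892.exists_frame_ut p
  rw [hκ, ricUT_eq, neg_neg]
  rfl

end Ric

/-! ### The inequality -/

/-- the Cauchy-Schwarz inequality for the trace -/
theorem sq_trace_le {m : ℕ} {A : Matrix (Fin m) (Fin m) ℝ} (hA : Aᵀ = A) :
    A.trace ^ 2 ≤ m * (A * A).trace := by
  have h1 : A.trace ^ 2 ≤ (Finset.univ : Finset (Fin m)).card * ∑ i, A i i ^ 2 :=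
    sq_sum_le_card_mul_sum_sq
  rw [Finset.card_univ, Fintype.card_fin] at h1
  refine h1.trans (mul_le_mul_of_nonneg_left ?_ (Nat.cast_nonneg m))
  refine Finset.sum_le_sum fun i _ => ?_
  rw [Matrix.diag_apply, Matrix.mul_apply]
  have h2 : ∀ j, A i j * A j i = A i j ^ 2 := fun j => by
    have h3 : A j i = A i j := congrFun (congrFun hA i) j
    rw [h3, sq]
  simp only [h2]
  exact Finset.single_le_sum (f := fun j => A i j ^ 2) (fun j _ => sq_nonneg _) (Finset.mem_univ i)

open Vale.Agent.P207.N3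

variable [Dim]

open Vale.Agent.P207.N4.Q

variable {M : Type} [TopologicalSpace M] [ChartedSpace (EV (Dim.m + 1)) M]
  [IsManifold 𝓘(ℝ, EV (Dim.m + 1)) ∞ M]
  [CompactSpace M] [T2Space M] {g : RMetric (EV (Dim.m + 1)) M}

theorem MDat.hasDerivAt_t {Φ : ℝ → Fr g → Fr g} (D : MDat g Φ) (f : Fr g) (r : ℝ) :
    HasDerivAt (fun s => D.t ((Φ s f).ut 0))
      ((Km g (Φ r f)).trace - (D.U (Φ r f) * D.U (Φ r f)).trace) r := by
  have e : (fun s => D.t ((Φ s f).ut 0)) = fun s => ∑ i, D.U (Φ s f) i i := by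
    funext s
    rw [D.t_eq]
    rfl
  rw [e]
  have h1 := HasDerivAt.fun_sum fun i (_ : i ∈ Finset.univ) => D.ur.ric f r i i
  refine h1.congr_deriv ?_
  rw [Finset.sum_sub_distrib]
  rfl

/-- **the square of the mean of `tr U` is at most `m` times the mean of `-Ric`** -/
theorem MDat.sq_integral_le [MeasurableSpace M] [BorelSpace M] {Φ : ℝ → Fr g → Fr g}
    (hΦ : IsHorFlow g (Pi.single 0 1) Φ) (D : MDat g Φ) {φ : ℝ → UT g → UT g}
    (hφ : IsGeoFlow g φ) {μ : Measure M} {m : Measure (UT g)} (hμ : IsRiemVol g μ)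
    (hm : IsLiouville g μ m) :
    (∫ p, D.t p ∂m) ^ 2 ≤ Dim.m * -(∫ p, P207F.ricUT g p ∂m) := by
  have := hm.1
  have := compactSpace_UT g
  obtain ⟨κ, hκ, hκf⟩ := exists_ric (g := g)
  have hint : ∀ F : C(UT g, ℝ), Integrable F m := fun F =>
    Integrable.of_bound (C := ‖F‖) F.continuous.measurable.aestronglyMeasurable
      (Eventually.of_forall fun x => F.norm_coe_le_norm x)
  have hflow : ∀ s (f : Fr g), (Φ s f).ut 0 = φ s (f.ut 0) := fun s f => hΦ.ut_eq hφ s f
  have hder : ∀ f : Fr g, HasDerivAt (fun s => D.t (φ s (f.ut 0)))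
      (κ (f.ut 0) - (D.U f * D.U f).trace) 0 := by
    intro f
    have h1 := D.hasDerivAt_t f 0
    have h2 : Φ 0 f = f := hΦ.zero f
    rw [h2, ← hκf] at h1
    simpa only [hflow] using h1
  have hcU : Continuous fun f : Fr g => (D.U f * D.U f).trace :=
    (D.cont.matrix_mul D.cont).matrix_trace
  obtain ⟨q, hq⟩ := exists_desc (g := g) (Y := ℝ) ⟨fun f => (D.U f * D.U f).trace, hcU⟩
    (fun A hA f => by
      have h1 := hder f
      have h2 := hder (Fr.rot A f)
      rw [H665.ut_rot hA] at h2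
      have h3 := h1.unique h2
      simp only [ContinuousMap.coe_mk]
      linarith)
  have hq' : ∀ f : Fr g, q (f.ut 0) = (D.U f * D.U f).trace := hq
  have h0 : ∫ p, (κ - q) p ∂m = 0 := by
    refine integral_flow_zero (fun x => hφ.zero x) (fun t => mp_geo hφ hμ hm t) D.t (κ - q)
      (fun x t => ?_)
    obtain ⟨f, rfl⟩ := H892.exists_frame_ut x
    have h1 := D.hasDerivAt_t f t
    rw [← hκf, ← hq', hflow] at h1
    simpa only [hflow, ContinuousMap.sub_apply] using h1
  have h1 : ∫ p, κ p ∂m = ∫ p, q p ∂m := by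
    have h2 : ∫ p, (κ - q) p ∂m = ∫ p, κ p ∂m - ∫ p, q p ∂m := integral_sub (hint κ) (hint q)
    linarith
  have h2 : ∀ p, D.t p ^ 2 ≤ Dim.m * q p := by
    intro p
    obtain ⟨f, rfl⟩ := H892.exists_frame_ut p
    rw [hq', D.t_eq]
    exact sq_trace_le (D.symm hΦ f)
  have h3 : ∫ p, D.t p ^ 2 ∂m ≤ Dim.m * ∫ p, q p ∂m := by
    rw [← integral_const_mul]
    exact integral_mono (hint (D.t ^ 2)) ((hint q).const_mul _) h2
  set c := ∫ p, D.t p ∂m with hc
  have h4 : 0 ≤ ∫ p, (D.t p - c) ^ 2 ∂m := integral_nonneg fun p => sq_nonneg _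
  have h5 : ∫ p, (D.t p - c) ^ 2 ∂m = ∫ p, D.t p ^ 2 ∂m - c ^ 2 := by
    have h6 : ∀ p, (D.t p - c) ^ 2 = D.t p ^ 2 - (2 * c * D.t p - c ^ 2) := fun p => by ring
    simp only [h6]
    have i1 : Integrable (fun p => D.t p ^ 2) m := hint (D.t ^ 2)
    have i2 : Integrable (fun p => 2 * c * D.t p) m := (hint D.t).const_mul _
    have e1 : ∫ p, (D.t p ^ 2 - (2 * c * D.t p - c ^ 2)) ∂m =
        ∫ p, D.t p ^ 2 ∂m - ∫ p, (2 * c * D.t p - c ^ 2) ∂m :=
      integral_sub i1 (i2.sub (integrable_const _))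
    have e2 : ∫ p, (2 * c * D.t p - c ^ 2) ∂m = ∫ p, 2 * c * D.t p ∂m - ∫ _ : UT g, c ^ 2 ∂m :=
      integral_sub i2 (integrable_const _)
    rw [e1, e2, integral_const_mul, ← hc]
    simp
    ring
  have h7 : ∫ p, κ p ∂m = -∫ p, P207F.ricUT g p ∂m := by
    have h8 : ∫ p, κ p ∂m = ∫ p : UT g, -(P207F.ricUT g p) ∂m :=
      integral_congr_ae (Eventually.of_forall hκ)
    exact h8.trans (integral_neg (fun p : UT g => P207F.ricUT g p))
  rw [← h7, h1]
  linarith

/-- **`h² ≤ -m ∫ Ric(v,v) dm_L` in the case of equality** -/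
theorem sq_entropy_le [ConnectedSpace M] [MeasurableSpace M] [BorelSpace M]
    {Φ : ℝ → Fr g → Fr g} (hΦ : IsHorFlow g (Pi.single 0 1) Φ) (D : MDat g Φ)
    (hN : NegCurvature g) {φ : ℝ → UT g → UT g} (hφ : IsGeoFlow g φ) {μ : Measure M}
    {m : Measure (UT g)} (hμ : IsRiemVol g μ) (hm : IsLiouville g μ m)
    (heq : ksEntropy m (φ 1) = topEntropy (φ 1)) :
    (topEntropy (φ 1)).toReal ^ 2 ≤ Dim.m * -(∫ p, P207F.ricUT g p ∂m) := by
  obtain ⟨-, h1, -⟩ := exists_psi_N3 hΦ D hN hφ hμ hm heq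
  rw [← h1]
  exact D.sq_integral_le hΦ hφ hμ hm

end Vale.Agent.P207.N4
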