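import Vale.Agent.P207.N4.Geo.CoreH
import Vale.Agent.P207.N4.Geo.RicAv

/-!
# P207: the final statement for `EntropyPinched`, from the logic

`HQ m a b h` : the condition on the rates `a ≤ U ≤ b` and the entropy `h` in dimension `m + 1`.
-/

open scoped Manifold ContDiff ENNReal Topology Matrix
open Bundle MeasureTheory Set Filter

set_option maxSynthPendingDepth 3
set_option linter.unusedSectionVars false

noncomputable section

namespace Vale.Agent.P207.N4

/-- The condition on the rates `a ≤ U ≤ b` and the entropy `h` in dimension `m + 1`. -/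
def HQ (m : ℕ) (a b h : ℝ) : Prop := b < 2 * a ∨ h < (m + 1) * a ∨ (2 * m - 1) * b < 2 * h

end Vale.Agent.P207.N4

namespace Vale.Agent.P207F.QN

open Vale.Agent.P255 (RMetric innerAt coefIn Gam Riem IsGeo)
open Vale.Agent.P207F

section Neg

variable {n : ℕ} {M : Type} [TopologicalSpace M] [ChartedSpace (EV n) M]
  [IsManifold 𝓘(ℝ, EV n) ∞ M] [MeasurableSpace M] {g : RMetric (EV n) M}

/-- the metrics of the class have negative curvature -/
theorem neg_of_entropy (h : EntropyPinched g) : NegCurvature g := by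
  rcases h with ⟨k, hk, h⟩ | ⟨a, ha, h, -⟩ | ⟨a, ha, h, -⟩ | ⟨h, -⟩
  · intro p u hu v w hli
    have h1 := (h p u hu v w hli).2
    have h2 := P207.Q.H717.gramDet_pos g hu hli
    nlinarith
  · intro p u hu v w hli
    have h1 := h p u hu v w hli
    have h2 := P207.Q.H717.gramDet_pos g hu hli
    have h3 : 0 < a ^ 2 := by positivity
    nlinarith
  · intro p u hu v w hli
    have h1 := h p u hu v w hli
    have h2 := P207.Q.H717.gramDet_pos g hu hli
    have h3 : 0 < a ^ 2 := by positivity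
    nlinarith
  · exact h

end Neg

end Vale.Agent.P207F.QN

namespace Vale.Agent.P207.N4

open Vale.Agent.P207.N3

open Vale.Agent.P255 (RMetric coefIn Gam Riem)
open Vale.Agent.P207.Q (Fr)
open Vale.Agent.P207.Q.H130 (Km)
open Vale.Agent.P207.Q.H717 (secc)
open Vale.Agent.P207F (ConstCurvature EntropyPinched SecLE SecGE QuarterPinched)

section Km

variable {m : ℕ} {M : Type} [TopologicalSpace M] [ChartedSpace (EV (m + 1)) M]
  [IsManifold 𝓘(ℝ, EV (m + 1)) ∞ M] {g : RMetric (EV (m + 1)) M}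

theorem Km_ge_of {l : ℝ} (h : SecLE g (-l)) (f : Fr g) (x : Fin m → ℝ) :
    l * (x ⬝ᵥ x) ≤ x ⬝ᵥ (Km g f *ᵥ x) := by
  rcases eq_or_ne x 0 with rfl | hx
  · simp
  · have h2 := h f.pt _ (mem_chart_target _ _) _ _ (H832.N4.li_sum f hx)
    rw [H832.N4.gram_sum] at h2
    rw [H832.N4.Km_quad]
    unfold secc
    linarith

theorem Km_le_of {l : ℝ} (h : SecGE g (-l)) (f : Fr g) (x : Fin m → ℝ) :
    x ⬝ᵥ (Km g f *ᵥ x) ≤ l * (x ⬝ᵥ x) := by
  rcases eq_or_ne x 0 with rfl | hx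
  · simp
  · have h2 := h f.pt _ (mem_chart_target _ _) _ _ (H832.N4.li_sum f hx)
    rw [H832.N4.gram_sum] at h2
    rw [H832.N4.Km_quad]
    unfold secc
    linarith

/-- The condition on the rates and the entropy, from the class. -/
theorem exists_rates [CompactSpace M] [T2Space M] [MeasurableSpace M] (hp : EntropyPinched g)
    {t : ℝ≥0∞} (hl : P207F.hLiou (P207F.stdB (m + 1)) g = t) (ht : P207F.hTop g = t)
    (h0 : 0 < t.toReal) (hric : t.toReal ^ 2 ≤
      m * -(∫ p, P207F.ricUT g p ∂(P207F.liou (P207F.stdB (m + 1)) g))) :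
    ∃ lam Lam : ℝ, 0 < lam ∧ lam ≤ Lam ∧ HQ m lam Lam t.toReal ∧
      ∀ (f : Fr g) (x : Fin m → ℝ), lam ^ 2 * (x ⬝ᵥ x) ≤ x ⬝ᵥ (Km g f *ᵥ x) ∧
        x ⬝ᵥ (Km g f *ᵥ x) ≤ Lam ^ 2 * (x ⬝ᵥ x) := by
  obtain ⟨lam₀, Lam₀, hl₀, hle₀, hb₀⟩ :=
    H832.N4.exists_Km_neg (P207F.negCurvature_iff.1 (P207F.QN.neg_of_entropy hp))
  have hxx : ∀ x : Fin m → ℝ, 0 ≤ x ⬝ᵥ x := fun x =>
    Finset.sum_nonneg fun i _ => mul_self_nonneg (x i)
  -- the alternatives with `K ≤ -a²`
  have hup : ∀ a : ℝ, 0 < a → SecLE g (-a ^ 2) → t.toReal < (m + 1) * a →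
      ∃ lam Lam : ℝ, 0 < lam ∧ lam ≤ Lam ∧ HQ m lam Lam t.toReal ∧
        ∀ (f : Fr g) (x : Fin m → ℝ), lam ^ 2 * (x ⬝ᵥ x) ≤ x ⬝ᵥ (Km g f *ᵥ x) ∧
          x ⬝ᵥ (Km g f *ᵥ x) ≤ Lam ^ 2 * (x ⬝ᵥ x) := by
    intro a ha hK hE
    refine ⟨a, max a Lam₀, ha, le_max_left _ _, Or.inr (Or.inl hE), fun f x =>
      ⟨Km_ge_of hK f x, (hb₀ f x).2.trans ?_⟩⟩
    have h1 : Lam₀ ^ 2 ≤ (max a Lam₀) ^ 2 :=
      pow_le_pow_left₀ (hl₀.le.trans hle₀) (le_max_right _ _) 2
    exact mul_le_mul_of_nonneg_right h1 (hxx x)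
  rcases hp with hq | ⟨a, ha, hK, hE⟩ | ⟨a, ha, hK, hE⟩ | ⟨-, b, hb, hK, hE⟩
  · obtain ⟨lam, Lam, hl, hle, hlt, hb⟩ :=
      H832.N4.exists_Km_pinched (m := m) (g := g) (c := 4) (by norm_num) hq
    exact ⟨lam, Lam, hl, hle, Or.inl (by nlinarith), hb⟩
  · rw [hl] at hE
    have h1 := ENNReal.toReal_lt_of_lt_ofReal hE
    push_cast at h1
    exact hup a ha hK h1
  · refine hup a ha hK ?_
    push_cast at hE
    have h1 : t.toReal ^ 2 < ((m + 1) * a) ^ 2 := by
      refine hric.trans_lt ?_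
      nlinarith
    exact lt_of_pow_lt_pow_left₀ 2 (by positivity) h1
  · refine ⟨min lam₀ b, b, lt_min hl₀ hb, min_le_right _ _, Or.inr (Or.inr ?_), fun f x =>
      ⟨le_trans ?_ (hb₀ f x).1, Km_le_of hK f x⟩⟩
    · rw [ht] at hE
      have h2 : t ≠ ⊤ := by
        rintro rfl
        simp at h0
      have h3 : 2 * t = ENNReal.ofReal (2 * t.toReal) := by
        rw [ENNReal.ofReal_mul (by norm_num), ENNReal.ofReal_toReal h2]
        norm_num
      rw [h3, ENNReal.ofReal_lt_ofReal_iff (by positivity)] at hE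
      push_cast at hE
      linarith
    · have h1 : (min lam₀ b) ^ 2 ≤ lam₀ ^ 2 :=
        pow_le_pow_left₀ (lt_min hl₀ hb).le (min_le_left _ _) 2
      exact mul_le_mul_of_nonneg_right h1 (hxx x)

end Km

/-- **Core** for the class, from the logic, in the dimension `Dim.m + 1`. -/
theorem core_of_entropy [Dim] (hL : LogicH (HQ Dim.m)) {M : Type} [TopologicalSpace M]
    [ChartedSpace (EV (Dim.m + 1)) M]
    [IsManifold 𝓘(ℝ, EV (Dim.m + 1)) ∞ M] [CompactSpace M] [T2Space M] [ConnectedSpace M]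
    [MeasurableSpace M] [BorelSpace M] (g : RMetric (EV (Dim.m + 1)) M)
    (hp : EntropyPinched g)
    (φ : ℝ → P207.UT g → P207.UT g) (μ : Measure M) (m : Measure (P207.UT g))
    (hφ : P207.IsGeoFlow g φ) (hμ : P207.IsRiemVol g μ) (hm : P207.IsLiouville g μ m)
    (heq : P207.ksEntropy m (φ 1) = P207.topEntropy (φ 1)) : ∃ κ, ConstCurvature g κ := by
  have hW := P207F.wellDefined (n := Dim.m + 1) (by have := Dim.two_le; omega) g
  have h1 : φ = P207F.geoFlow g := (hW.1 φ).1 hφ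
  have h2 : μ = P207F.vol (P207F.stdB (Dim.m + 1)) g := (hW.2.1 μ).1 hμ
  have h3 : m = P207F.liou (P207F.stdB (Dim.m + 1)) g := (hW.2.2 m).1 (by rw [← h2]; exact hm)
  have h4 : P207F.hTop g = P207.topEntropy (φ 1) := by rw [h1]; rfl
  have h5 : P207F.hLiou (P207F.stdB (Dim.m + 1)) g = P207.topEntropy (φ 1) := by
    rw [← heq, h1, h3]; rfl
  have hN := P207F.negCurvature_iff.1 (P207F.QN.neg_of_entropy hp)
  obtain ⟨hsc, hne, -⟩ := Vale.Agent.P207.H582.exists_setting hφ hμ hm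
  obtain ⟨D⟩ := exists_MDat hN hφ
  have h6 := sq_entropy_le ((Vale.Agent.P207.Q.horFlows g).hor 0) D hN hφ hμ hm heq
  rw [h3] at h6
  exact core_of_logicH hL g hN φ μ m hφ hμ hm heq fun h0 => exists_rates hp h5 h4 h0 h6

/-- **Core** for the class, from the logic, in all dimensions `n ≥ 3`. -/
theorem core_of_entropy_n {n : ℕ} (hn : 3 ≤ n) (hL : ∀ [Dim], LogicH (HQ Dim.m))
    {M : Type} [TopologicalSpace M] [ChartedSpace (EV n) M]
    [IsManifold 𝓘(ℝ, EV n) ∞ M] [CompactSpace M] [T2Space M] [ConnectedSpace M]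
    [MeasurableSpace M] [BorelSpace M] (g : RMetric (EV n) M)
    (hp : EntropyPinched g)
    (φ : ℝ → P207.UT g → P207.UT g) (μ : Measure M) (m : Measure (P207.UT g))
    (hφ : P207.IsGeoFlow g φ) (hμ : P207.IsRiemVol g μ) (hm : P207.IsLiouville g μ m)
    (heq : P207.ksEntropy m (φ 1) = P207.topEntropy (φ 1)) : ∃ κ, ConstCurvature g κ := by
  obtain ⟨k, rfl⟩ : ∃ k, n = k + 1 := ⟨n - 1, by omega⟩
  have h2 : 2 ≤ k := by omega
  exact @core_of_entropy (Dim.mk k h2) (@hL (Dim.mk k h2)) M _ _ _ _ _ _ _ _ g hp φ μ m hφ hμ hm heq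

end Vale.Agent.P207.N4

namespace Vale.Agent.P207F.QN

open Vale.Agent.P255 (RMetric innerAt coefIn Gam Riem IsGeo)
open Vale.Agent.P207F

variable {n : ℕ} {M : Type} [TopologicalSpace M] [CompactSpace M] [T2Space M] [ConnectedSpace M]
  [ChartedSpace (EV n) M] [IsManifold 𝓘(ℝ, EV n) ∞ M] [MeasurableSpace M] [BorelSpace M]

/-- the final statement for the class, from the core theorem -/
theorem final_entropy (hn : 3 ≤ n)
    (core : ∀ g : RMetric (EV n) M, EntropyPinched g → ∀ φ μ m, P207.IsGeoFlow g φ →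
      P207.IsRiemVol g μ → P207.IsLiouville g μ m →
      P207.ksEntropy m (φ 1) = P207.topEntropy (φ 1) → ∃ κ, ConstCurvature g κ) :
    (∀ g : RMetric (EV n) M, WellDefined (stdB n) g) ∧
    ∀ g : RMetric (EV n) M, EntropyPinched g →
      NegCurvature g ∧ hLiou (stdB n) g ≤ hTop g ∧
      (hLiou (stdB n) g = hTop g ↔ LocSymmetric g) ∧
      (hLiou (stdB n) g = hTop g ↔ ∃ κ : ℝ, 0 < κ ∧ ConstCurvature g κ) :=
  final_n (by omega) (fun _ h => neg_of_entropy h) core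

end Vale.Agent.P207F.QN
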