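import Vale.Agent.P207.N4.Geo.Over
import Vale.Agent.P207.H832.N4.UR
import Vale.Agent.P207.H582.MD

/-!
# P207, line N4, rows R0 and R17: the Riccati data of `M`, the cocycle `log det (U + U^flip)`, and
the normalised continuous solution of the cohomological equation
-/

open scoped Manifold ContDiff ENNReal Topology Matrix
open Bundle MeasureTheory Set Filter

set_option maxSynthPendingDepth 3
set_option linter.unusedSectionVars false

noncomputable section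

namespace Vale.Agent.P207.N4

open Vale.Agent.P207.N3

variable [Dim]

open Vale.Agent.P255 (RMetric)
open Vale.Agent.P207.N4.Q Vale.Agent.P207.Q Vale.Agent.P207.Q.H130
open Vale.Agent.P207.Q.H892 (Stab)

variable {M : Type} [TopologicalSpace M] [ChartedSpace (EV (Dim.m + 1)) M]
  [IsManifold 𝓘(ℝ, EV (Dim.m + 1)) ∞ M]
  [CompactSpace M] [T2Space M] {g : RMetric (EV (Dim.m + 1)) M}

section

variable [Nonempty (Fr g)]

/-- **R0**, with given bounds of the curvature -/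
theorem exists_MDat_of {lam Lam : ℝ} (hl : 0 < lam) (hle : lam ≤ Lam)
    (hb : ∀ (f : Fr g) (x : Fin Dim.m → ℝ), lam ^ 2 * (x ⬝ᵥ x) ≤ x ⬝ᵥ (Km g f *ᵥ x) ∧
      x ⬝ᵥ (Km g f *ᵥ x) ≤ Lam ^ 2 * (x ⬝ᵥ x)) {φ : ℝ → UT g → UT g} (hφ : IsGeoFlow g φ) :
    ∃ D : MDat g ((horFlows g).Φ 0), D.lam = lam ∧ D.Lam = Lam := by
  obtain ⟨U, hc, hU, -, -, hhi⟩ := H832.N4.exists_UR_of hl hle hb
  have hor := (horFlows g).hor 0
  obtain ⟨t, ht, -⟩ := hU.exists_t hor (fun i => hc.matrix_elem i i) hφ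
  obtain ⟨S, hS⟩ := H582.exists_detS hor hU hc
  exact ⟨⟨lam, Lam, U, hc, hU, hhi, t, ht, S, hS⟩, rfl, rfl⟩

/-- **R0** -/
theorem exists_MDat (hN : NegCurvature g) {φ : ℝ → UT g → UT g} (hφ : IsGeoFlow g φ) :
    Nonempty (MDat g ((horFlows g).Φ 0)) := by
  obtain ⟨lam, Lam, hl, hle, hb⟩ := H832.N4.exists_Km_neg hN
  obtain ⟨D, -⟩ := exists_MDat_of hl hle hb hφ
  exact ⟨D⟩

end

namespace MDat

variable {Φ : ℝ → Fr g → Fr g} (D : MDat g Φ)

theorem symm (hΦ : IsHorFlow g (Pi.single 0 1) Φ) (f : Fr g) : (D.U f)ᵀ = D.U f :=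
  D.ur.symm hΦ f

theorem lam_pos : 0 < D.lam := D.ur.pos

theorem S_ge (hΦ : IsHorFlow g (Pi.single 0 1) Φ) (f : Fr g) :
    (2 * D.lam) ^ Dim.m ≤ D.S (f.ut 0) := by
  rw [D.S_eq]
  exact H582.det_S_ge hΦ D.ur f

theorem S_pos (hΦ : IsHorFlow g (Pi.single 0 1) Φ) (f : Fr g) : 0 < D.S (f.ut 0) := by
  rw [D.S_eq]
  exact H582.det_S_pos hΦ D.ur f

theorem flip_Φ (hΦ : IsHorFlow g (Pi.single 0 1) Φ) (t : ℝ) (f : Fr g) :
    flipF (Φ t f) = Φ (-t) (flipF f) := H582.flip_Φ hΦ t f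

theorem Km_flip (f : Fr g) : Km g (flipF f) = Km g f := H582.Km_flip f

/-- the flipped solution along the flow -/
theorem ric_flip (hΦ : IsHorFlow g (Pi.single 0 1) Φ) (f : Fr g) (r : ℝ) (i j : Fin Dim.m) :
    HasDerivAt (fun s => D.U (flipF (Φ s f)) i j)
      ((D.U (flipF (Φ r f)) * D.U (flipF (Φ r f))) i j - Km g (Φ r f) i j) r :=
  H582.ric_flip hΦ D.ur f r i j

/-- the derivative of `det (U + U^flip)` along the flow -/
theorem hasDerivAt_S (hΦ : IsHorFlow g (Pi.single 0 1) Φ) (f : Fr g) (r : ℝ) :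
    HasDerivAt (fun s => D.S ((Φ s f).ut 0))
      (D.S ((Φ r f).ut 0) * ((D.t ((flipF (Φ r f)).ut 0)) - D.t ((Φ r f).ut 0))) r := by
  have e : (fun s => D.S ((Φ s f).ut 0)) =
      fun s => (D.U (Φ s f) + D.U (flipF (Φ s f))).det := by
    funext s
    exact D.S_eq _
  rw [e, D.S_eq, D.t_eq, D.t_eq]
  exact H582.hasDerivAt_detS hΦ D.ur f r

end MDat

/-! ### R18: normalisation -/

/-- **R18**: the normalised solution, from a continuous solution and the density of an orbit -/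
theorem exists_RDat {Φ : ℝ → Fr g → Fr g} (hΦ : IsHorFlow g (Pi.single 0 1) Φ)
    (hcont : Continuous fun q : ℝ × Fr g => Φ q.1 q.2) (D : MDat g Φ) {h : ℝ}
    (hconst : ∀ F : C(UT g, ℝ), (∀ T (f : Fr g), F ((Φ T f).ut 0) = F (f.ut 0)) →
      ∃ c, ∀ v, F v = c) (r : C(UT g, ℝ))
    (hr : ∀ f T, r ((Φ T f).ut 0) - r (f.ut 0) =
      h * T - ∫ s in (0 : ℝ)..T, D.t ((Φ s f).ut 0)) :
    Nonempty (RDat D h) := by
  obtain ⟨r', h1, h2⟩ := H582.exists_r hΦ hcont D.ur D.t_eq D.S_eq hconst r hr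
  exact ⟨⟨r', h1, h2⟩⟩

end Vale.Agent.P207.N4
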