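import Vale.Agent.P207.N4.Dim
import Vale.Agent.P207.N4.Geo.Glue
import Vale.Agent.P207.N4.H618.MetU
import Vale.Agent.P207.N4.H686.P2B
import Vale.Agent.P207.N4.H646.DensT

/-!
# P207, line N4: the areas of the leaves over `M`, from `RDat`
-/

open scoped Manifold ContDiff ENNReal Topology Matrix
open Bundle MeasureTheory Set Filter Metric

set_option maxSynthPendingDepth 3
set_option linter.unusedSectionVars false

noncomputable section

namespace Vale.Agent.P207.N4

open Vale.Agent.P207.N3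

variable [Dim]

open Vale.Agent.P255 (RMetric)
open Vale.Agent.P207.N4.Q Vale.Agent.P207.Q Vale.Agent.P207.Q.H130

variable {M : Type} [TopologicalSpace M] [ChartedSpace (EV (Dim.m + 1)) M] [IsManifold 𝓘(ℝ, EV (Dim.m + 1)) ∞ M]
  [CompactSpace M] [T2Space M] {g : RMetric (EV (Dim.m + 1)) M}

variable {Γ X B : Type} [Group Γ] [MetricSpace X] [ProperSpace X] [MulAction Γ X]
  [IsIsometricSMul Γ X] [TopologicalSpace B] [CompactSpace B] [T2Space B] [MulAction Γ B]
  [ContinuousConstSMul Γ B]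

/-- (824) the areas from the densities -/
def AreaStmt [MeasurableSpace B] [BorelSpace B] (L : Leaf Γ X B) (h : ℝ) : Prop :=
  ∀ s : X → E2 → ℝ, (∀ x, ∀ u ∈ ball (0 : E2) 3, 0 < s x u) →
    (∀ x, ContDiffOn ℝ ∞ (s x) (ball 0 3)) →
    (∀ k : ℕ, ContinuousOn (fun p : X × E2 => iteratedFDeriv ℝ k (s p.1) p.2)
      (univ ×ˢ ball 0 3)) →
    (∀ (g : Γ) x, ∀ u ∈ ball (0 : E2) 3, s (g • x) u = s x u) →
    (∀ x y, L.em x = L.em y → ∀ u ∈ L.dm x y,
      s x u = Real.exp (h * (L.lv x - L.lv y)) * |(fderiv ℝ (L.τ x y) u).det| *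
        s y (L.τ x y u)) → ∃ A : Area L, A.h = h ∧ A.s = s

theorem tr_cl (A : Matrix (Fin Dim.m) (Fin Dim.m) ℝ) : H686.tr (H618.cl A) = A.trace := by
  rw [H686.tr, LinearMap.trace_eq_matrix_trace ℝ (EuclideanSpace.basisFun (Fin Dim.m) ℝ).toBasis]
  congr 1
  ext i j
  rw [LinearMap.toMatrix_apply]
  simp only [OrthonormalBasis.coe_toBasis_repr_apply, EuclideanSpace.basisFun_repr,
    OrthonormalBasis.coe_toBasis, EuclideanSpace.basisFun_apply]
  change H618.cl A (EuclideanSpace.single j 1) i = A i j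
  rw [H618.cl_apply]
  simp

/-- the density at the centre of the disc of radius `r₀` -/
theorem exists_area [MeasurableSpace B] [BorelSpace B] {Φ : ℝ → Fr g → Fr g}
    (hΦ : IsHorFlow g (Pi.single 0 1) Φ) {L : Leaf Γ X B} {fr : X → Fr g} (O : Over Φ L fr)
    (D : MDat g Φ) (J : H618.JI L (H618.ukOf hΦ O D)) {h : ℝ} (R : RDat D h)
    {r₀ : ℝ} (hr₀ : 0 < r₀) (hA : AreaStmt L h) :
    ∃ A : Area L, A.h = h ∧ ∀ x, A.s x 0 = r₀ ^ Dim.m * Real.exp (R.r ((fr x).ut 0)) := by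
  have hc : H646.Coc L (fun x => R.r ((fr x).ut 0) + (Dim.m : ℝ) * Real.log r₀) h := by
    refine H686.coc_of_r (H618.UK.metr _ J)
      ((R.r.continuous.comp ((Fr.continuous_ut 0).comp O.cont)).add continuous_const)
      (fun γ x => by rw [O.smul]) (fun a x => by rw [O.ut_rot]) fun t x => ?_
    have h1 := R.coc (fr x) t
    rw [← O.flow] at h1
    have h2 : ∀ s, H686.tr ((H618.UK.metr _ J).U (L.φ s x)) = D.t ((Φ s (fr x)).ut 0) := by
      intro s
      change H686.tr (H618.cl (D.U (fr (L.φ s x)))) = _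
      rw [tr_cl, ← D.t_eq, O.flow]
    simp only [h2]
    linarith
  obtain ⟨s, h0, h1, h2, h3, h4, h5⟩ := H646.exists_dens hc
  obtain ⟨A, hAh, hAs⟩ := hA s h1 h2 h3 h4 h5
  refine ⟨A, hAh, fun x => ?_⟩
  rw [hAs, h0, Real.exp_add, mul_comm]
  congr 1
  rw [Real.exp_nat_mul, Real.exp_log hr₀]

end Vale.Agent.P207.N4
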