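import Vale.Agent.P207.N4.Geo.LogicD
import Vale.Agent.P207.N4.H58.PicG
import Vale.Agent.P207.N4.H391.SmB
import Vale.Agent.P207.N4.H9.NuC
import Vale.Agent.P207.H883.St8

/-!
# P207, line N4: the logic from its four parts

`AffP` (T1), `Steps17`, `Step8`, `Step9` are the statements of the four parts of the logic;
`logic_of` puts them together.
-/

open Set Filter Topology Metric MeasureTheory
open scoped ContDiff ENNReal

noncomputable section

namespace Vale.Agent.P207.N4

open Vale.Agent.P207.N3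

/-- (T1) the affine charts of the unstable leaves exist -/
def AffP [Dim] : Prop :=
  ∀ {Γ X B V : Type} [Group Γ] [MetricSpace X] [ProperSpace X] [MulAction Γ X]
    [IsIsometricSMul Γ X] [TopologicalSpace B] [CompactSpace B] [T2Space B] [MulAction Γ B]
    [ContinuousConstSMul Γ B] [MeasurableSpace B] [BorelSpace B]
    [NormedAddCommGroup V] [NormedSpace ℝ V] [FiniteDimensional ℝ V]
    (L : Leaf Γ X B) (S : Suite L V) (_ : H618.Conn S.I S.M.U) (_ : Rates S.M), Nonempty (Aff L)

/-- steps 1 to 7: the smooth alternative -/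
def Steps17 [Dim] : Prop :=
  ∀ {Γ X B V : Type} [Group Γ] [MetricSpace X] [ProperSpace X] [MulAction Γ X]
    [IsIsometricSMul Γ X] [TopologicalSpace B] [CompactSpace B] [T2Space B] [MulAction Γ B]
    [ContinuousConstSMul Γ B] [MeasurableSpace B] [BorelSpace B]
    [NormedAddCommGroup V] [NormedSpace ℝ V] [FiniteDimensional ℝ V]
    (L : Leaf Γ X B) (P : PicG L V), SmoothAlt P.S.T

/-- step 8: the quadratic field -/
def Step8 [Dim] : Prop :=
  ∀ {Γ X B V : Type} [Group Γ] [MetricSpace X] [ProperSpace X] [MulAction Γ X]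
    [IsIsometricSMul Γ X] [TopologicalSpace B] [CompactSpace B] [T2Space B] [MulAction Γ B]
    [ContinuousConstSMul Γ B] [MeasurableSpace B] [BorelSpace B]
    [NormedAddCommGroup V] [NormedSpace ℝ V] [FiniteDimensional ℝ V]
    (L : Leaf Γ X B) (P : PicG L V), SmoothAlt P.S.T → H391.SmB L P.S.A.D →
    Nonempty (H883.St8 L)

/-- step 9: the flat charts -/
def Step9 [Dim] : Prop :=
  ∀ {Γ X B V : Type} [Group Γ] [MetricSpace X] [ProperSpace X] [MulAction Γ X]
    [IsIsometricSMul Γ X] [TopologicalSpace B] [CompactSpace B] [T2Space B] [MulAction Γ B]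
    [ContinuousConstSMul Γ B] [MeasurableSpace B] [BorelSpace B]
    [NormedAddCommGroup V] [NormedSpace ℝ V] [FiniteDimensional ℝ V]
    (L : Leaf Γ X B) (P : PicG L V), SmoothAlt P.S.T → H391.SmB L P.S.A.D → H883.St8 L →
    Nonempty (H9.FlatM L P.S.A)

/-- **The logic from its parts.** -/
theorem logic_of [Dim] (h1 : AffP) (h2 : Steps17) (h3 : Step8) (h4 : Step9) : LogicN4 := by
  intro Γ X B V _ _ _ _ _ _ _ _ _ _ _ _ _ _ _ L S C a b ha hab hp hlo hhi hcal
  have R : Rates S.M := ⟨a, b, ha, hab, hp, hlo, hhi⟩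
  obtain ⟨F⟩ := h1 L S C R
  let P : PicG L V := PicG.mk' S C F R
  have hA : SmoothAlt P.S.T := h2 L P
  obtain ⟨x₀, hx₀⟩ := S.X.exists_base
  have hS : H391.SmB L S.A.D := H391.smB_of_alt S.I S.M S.H hA hx₀ S.A.D S.A.D_eq
  obtain ⟨T⟩ := h3 L P hA hS
  obtain ⟨F9⟩ := h4 L P hA hS T
  exact H9.nu_of_flat F9 hcal

end Vale.Agent.P207.N4
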