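import Vale.Agent.P207.N4.Geo.Asm
import Vale.Agent.P207.N4.H709.Rat
import Vale.Agent.P207.N4.H391.St8X
import Vale.Agent.P207.N4.H832.RateP
import Vale.Agent.P207.H883.FlatG

/-!
# P207, line N4: the logic from the steps 1 to 7
-/

open Set Filter Topology Metric MeasureTheory
open scoped ContDiff ENNReal

noncomputable section

namespace Vale.Agent.P207.N4

open Vale.Agent.P207.N3

variable [Dim]

theorem affP : AffP := by
  intro Γ X B V _ _ _ _ _ _ _ _ _ _ _ _ _ _ _ L S C R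
  obtain ⟨F, -⟩ := H709.aff_of_rates S.M R.a_pos (by linarith [R.pinch, R.a_pos]) R.lo R.hi
  exact ⟨F⟩

theorem step8 : Step8 := by
  intro Γ X B V _ _ _ _ _ _ _ _ _ _ _ _ _ _ _ L P _ hS
  obtain ⟨T, -⟩ := H391.exists_st8 P.Af hS P.S.A.D_eq P.Ra.a_pos P.Ra.a_le_b P.Ra.pinch
    (H832.rateP P.toPic)
  exact ⟨T⟩

theorem step9 : Step9 := by
  intro Γ X B V _ _ _ _ _ _ _ _ _ _ _ _ _ _ _ L P _ _ T
  exact ⟨T.flatM P.S.A⟩

/-- **The logic, from the steps 1 to 7.** -/
theorem logic_of17 (h : Steps17) : LogicN4 := logic_of affP h step8 step9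

end Vale.Agent.P207.N4
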