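import Vale.Agent.P207.N4.Dim
import Vale.Agent.P207.N4.Geo.Glue
import Vale.Agent.P207.N4.H76.Asm2
import Vale.Agent.P207.N4.H156.GeoA

/-!
# P207, line N3: the leaf structures of the universal cover lie over the frame bundle of `M`
-/

open scoped Manifold ContDiff ENNReal Topology Matrix
open Bundle MeasureTheory Set Filter

set_option maxSynthPendingDepth 3
set_option linter.unusedSectionVars false

noncomputable section

namespace Vale.Agent.P207.N4

open Vale.Agent.P207.N3

variable [Dim]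

open Vale.Agent.P255 (RMetric Npc)
open Vale.Agent.P207.N4.Q Vale.Agent.P207.Q Vale.Agent.P207.Q.H130
open H908 (mo rotE)
open H465 (Deck PB Mt toMt ofMt Xt homeoMt)
open H156 (geoA Dk fl co)

theorem mo_sg : mo H76.sg = flipO Dim.m := by
  refine Subtype.ext ?_
  ext i j
  rw [H908.mo_val, flipO_apply]
  change H76.sg (EuclideanSpace.single j 1) i = _
  rw [H76.sg_apply]
  refine Fin.cases ?_ (fun i => ?_) i
  · rw [H76.pk_zero, PiLp.single_apply]
    split_ifs with h
    · rw [← h, sgv_zero]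
    · simp
  · rw [H76.pk_succ, H76.tl_apply, PiLp.single_apply]
    split_ifs with h
    · rw [← h, sgv_succ]
    · rfl

variable {M : Type} [TopologicalSpace M] [ChartedSpace (EV (Dim.m + 1)) M] [IsManifold 𝓘(ℝ, EV (Dim.m + 1)) ∞ M]
  [CompactSpace M] [T2Space M] {g : RMetric (EV (Dim.m + 1)) M} [Nonempty (Fr g)]

/-- the frame of `M` under a frame of the universal cover -/
def frm {h : Npc (mt g)} {m : M} (x : Xt g h m) : Fr g := x.f

variable [ConnectedSpace M] {hN : NegCurvature g} {m : M}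

theorem co_e0 : co H76.e0 = Pi.single (0 : Fin (Dim.m + 1)) (1 : ℝ) := by
  funext i
  refine Fin.cases ?_ (fun i => ?_) i <;> simp [co, H76.e0]

variable {V : Type} [NormedAddCommGroup V] [NormedSpace ℝ V] [FiniteDimensional ℝ V]
  {j : Mt (sys g (npc_of_neg hN)) m ≃ₜ V} {I : (geoA hN m).In3 j} {r₀ t₁ χ : ℝ}

/-- **`Over` for all base points** -/
theorem over_leaf (hc : H76.Geo.Cst I r₀ t₁ χ) (o : Mt (sys g (npc_of_neg hN)) m) :
    Over ((horFlows g).Φ 0) (hc.leaf o) (frm (h := npc_of_neg hN) (m := m)) where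
  cont := PB.continuous_f
  surj := fun f => by
    obtain ⟨q, hq⟩ := H156.surj_e (npc_of_neg hN) m f.pt
    exact ⟨PB.mk q f hq, rfl⟩
  smul := fun γ x => PB.f_smul γ x
  fib := fun x y hxy => by
    obtain ⟨γ, hγ⟩ := PB.exists_smul_eq ((sys g (npc_of_neg hN)).cov m) (x := x) (y := y) hxy
    exact ⟨γ, hγ.symm⟩
  flow := fun t x => by
    change (H566.lift _ (t • co H76.e0) x).f = Q.Fl.CSys.flow (horVF g (Pi.single 0 1)) t x.f
    rw [H566.f_lift, H566.flow_eq_hflow, co_e0]
  rot := fun a x => by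
    change Fr.rot (mo (H76.ext a)) x.f = _
    rw [ext_eq_ext]
    rfl
  flip := fun x => by
    change Fr.rot (mo H76.sg) x.f = Fr.rot (flipO Dim.m) x.f
    rw [mo_sg]

end Vale.Agent.P207.N4
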