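import Vale.Agent.P207.N4.Dim
import Vale.Agent.P207.N4.Geo.Glue
import Vale.Agent.P207.N4.H662.FDefs
import Vale.Agent.P207.N4.H546.R21
import Vale.Agent.P207.H9.SantM

/-!
# P207, line N4: the top theorem from the leaf structures at all base points
-/

open scoped Manifold ContDiff ENNReal Topology Matrix
open Bundle MeasureTheory Set Filter

set_option maxSynthPendingDepth 3
set_option linter.unusedSectionVars false

noncomputable section

namespace Vale.Agent.P207.N4

open Vale.Agent.P207.N3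

variable [Dim]

open Vale.Agent.P255 (RMetric)
open Vale.Agent.P207.Q Vale.Agent.P207.Q.H130
open Vale.Agent.P207F (ConstCurvature)

/-- the area of the unit sphere of `ℝ^(m+1)` over `2^m` -/
abbrev sphm : ℝ := Vale.Agent.P207.H9.SantM.sph Dim.m

/-- (P8) the bound of the visual measure -/
def NuB {Γ X B : Type} [Group Γ] [MetricSpace X] [ProperSpace X] [MulAction Γ X]
    [IsIsometricSMul Γ X] [TopologicalSpace B] [CompactSpace B] [T2Space B] [MulAction Γ B]
    [ContinuousConstSMul Γ B] [MeasurableSpace B] [BorelSpace B] {L : Leaf Γ X B}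
    (A : Area L) : Prop :=
  A.ν univ ≤ ENNReal.ofReal (Real.sqrt ((2 * Dim.m / A.h) ^ Dim.m) * sphm)

variable {M : Type} [TopologicalSpace M] [ChartedSpace (EV (Dim.m + 1)) M]
  [IsManifold 𝓘(ℝ, EV (Dim.m + 1)) ∞ M]
  [CompactSpace M] [T2Space M] {g : RMetric (EV (Dim.m + 1)) M}

/-- Everything at the base point `p` of `M`. -/
structure BSuite {Φ : ℝ → Fr g → Fr g} (D : MDat g Φ) {h : ℝ} (R : RDat D h) (p : M)
    (Γ X B : Type) [Group Γ] [MetricSpace X] [ProperSpace X] [MulAction Γ X]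
    [IsIsometricSMul Γ X] [TopologicalSpace B] [CompactSpace B] [T2Space B] [MulAction Γ B]
    [ContinuousConstSMul Γ B] [MeasurableSpace B] [BorelSpace B] where
  L : Leaf Γ X B
  A : Area L
  A_h : A.h = h
  nu : NuB A
  mass : ENNReal.ofReal ((2 ^ Dim.m * sphm) *
    sphAvg g (fun v => Real.exp (R.r v) / D.S v) p) ≤ A.ν univ

theorem BSuite.bound {Φ : ℝ → Fr g → Fr g} {D : MDat g Φ} {h : ℝ} {R : RDat D h}
    {p : M} {Γ X B : Type} [Group Γ] [MetricSpace X] [ProperSpace X] [MulAction Γ X]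
    [IsIsometricSMul Γ X] [TopologicalSpace B] [CompactSpace B] [T2Space B] [MulAction Γ B]
    [ContinuousConstSMul Γ B] [MeasurableSpace B] [BorelSpace B]
    (S : BSuite D R p Γ X B) :
    sphAvg g (fun v => Real.exp (R.r v) / D.S v) p ≤
      Real.sqrt ((2 * Dim.m / h) ^ Dim.m) / 2 ^ Dim.m := by
  have hp : 0 < sphm := Vale.Agent.P207.H9.SantM.sph_pos Dim.m
  have h1 := S.mass.trans S.nu
  rw [ENNReal.ofReal_le_ofReal_iff (mul_nonneg (Real.sqrt_nonneg _) hp.le), S.A_h] at h1
  rw [le_div_iff₀ (by positivity)]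
  have h2 : (2 ^ Dim.m * sphm) * sphAvg g (fun v => Real.exp (R.r v) / D.S v) p =
      (sphAvg g (fun v => Real.exp (R.r v) / D.S v) p * 2 ^ Dim.m) * sphm := by ring
  rw [h2] at h1
  exact le_of_mul_le_mul_right h1 hp

/-- **the top**: constant curvature from the bounds at all points -/
theorem core_of_bounds [ConnectedSpace M] [MeasurableSpace M] [BorelSpace M] [Nonempty (Fr g)]
    (hN : NegCurvature g) {φ : ℝ → UT g → UT g} (hφ : IsGeoFlow g φ) {μ : Measure M}
    {m : Measure (UT g)} (hμ : IsRiemVol g μ) (hm : IsLiouville g μ m)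
    (heq : ksEntropy m (φ 1) = topEntropy (φ 1))
    (D : MDat g ((horFlows g).Φ 0))
    (hR : Nonempty (RDat D (topEntropy (φ 1)).toReal))
    (hS : ∀ (R : RDat D (topEntropy (φ 1)).toReal) (p : M),
      sphAvg g (fun v => Real.exp (R.r v) / D.S v) p ≤
        Real.sqrt ((2 * Dim.m / (topEntropy (φ 1)).toReal) ^ Dim.m) / 2 ^ Dim.m) :
    ∃ κ, ConstCurvature g κ := by
  obtain ⟨R⟩ := hR
  have hh := (exists_psi_N3 ((horFlows g).hor 0) D hN hφ hμ hm heq).1
  exact H546.const_of_mass hN hφ hμ hm D hh R (hS R)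

end Vale.Agent.P207.N4
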