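import Vale.Agent.P207.N4.Geo.Over
import Vale.Agent.P207.H832.N4.UR

/-!
# P207, line N4, row R0: the unstable Riccati solution of a negatively curved closed manifold
-/

open scoped Manifold ContDiff ENNReal Topology Matrix
open Bundle MeasureTheory Set Filter

set_option maxSynthPendingDepth 3
set_option linter.unusedSectionVars false

noncomputable section

namespace Vale.Agent.P207.N4

variable [Dim]

open Vale.Agent.P255 (RMetric)
open Vale.Agent.P207.Q Vale.Agent.P207.Q.H130

variable {M : Type} [TopologicalSpace M] [ChartedSpace (EV (Dim.m + 1)) M]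
  [IsManifold 𝓘(ℝ, EV (Dim.m + 1)) ∞ M]
  [CompactSpace M] [T2Space M] {g : RMetric (EV (Dim.m + 1)) M}

theorem continuous_Km : Continuous fun f : Fr g => Km g f := H832.N4.continuous_KmM

/-- **R0** -/
theorem exists_UR [Nonempty (Fr g)] (hN : NegCurvature g) :
    ∃ (lam Lam : ℝ) (U : Fr g → Matrix (Fin Dim.m) (Fin Dim.m) ℝ),
      Continuous U ∧ IsUR ((horFlows g).Φ 0) lam Lam U ∧
        ∀ f x, x ⬝ᵥ (U f *ᵥ x) ≤ Lam * (x ⬝ᵥ x) :=
  H832.N4.exists_UR hN

end Vale.Agent.P207.N4
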