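import Vale.Agent.P207.N4.Geo.Final

/-!
# P207, line N4: constant curvature from the logic, with a condition on the rates and the entropy

`LogicH Q` : the statement of the logic for the rates `a ≤ U ≤ b` and the entropy `h`, under the
condition `Q a b h`. `core_of_logicH` : the condition holds for the topological entropy.
-/

open scoped Manifold ContDiff ENNReal Topology Matrix
open Bundle MeasureTheory Set Filter

set_option maxSynthPendingDepth 3
set_option linter.unusedSectionVars false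

noncomputable section

namespace Vale.Agent.P207.N4

open Vale.Agent.P207.N3

variable [Dim]

/-- The statement of the logic, for the condition `Q a b h` on the rates `a ≤ U ≤ b` and the
entropy `h`. -/
def LogicH (Q : ℝ → ℝ → ℝ → Prop) : Prop :=
  ∀ {Γ X B V : Type} [Group Γ] [MetricSpace X] [ProperSpace X] [MulAction Γ X]
    [IsIsometricSMul Γ X] [TopologicalSpace B] [CompactSpace B] [T2Space B] [MulAction Γ B]
    [ContinuousConstSMul Γ B] [MeasurableSpace B] [BorelSpace B]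
    [NormedAddCommGroup V] [NormedSpace ℝ V] [FiniteDimensional ℝ V]
    (L : Leaf Γ X B) (S : Suite L V) (_ : H618.Conn S.I S.M.U) (a b : ℝ),
    0 < a → a ≤ b → Q a b S.A.h →
    (∀ x v, a * ‖v‖ ^ 2 ≤ inner ℝ (S.M.U x v) v) →
    (∀ x v, inner ℝ (S.M.U x v) v ≤ b * ‖v‖ ^ 2) → H662.Calib L S.A → NuB S.A

/-- The logic for a condition on the rates only. -/
theorem LogicQ.toH {Q : ℝ → ℝ → Prop} (h : LogicQ Q) : LogicH fun a b _ => Q a b :=
  fun L S C a b h1 h2 h3 h4 h5 h6 => h L S C a b h1 h2 h3 h4 h5 h6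

open Vale.Agent.P255 (RMetric Npc)
open Vale.Agent.P207.N4.Q Vale.Agent.P207.Q Vale.Agent.P207.Q.H130 Vale.Agent.P207.Q.H892
open Vale.Agent.P207F (ConstCurvature)
open H465 (Deck PB Mt toMt ofMt Xt homeoMt)
open H156 (geoA Dk fl co jA)
open H607 (geoInL rieA)

section Suit

variable {M : Type} [TopologicalSpace M] [ChartedSpace (EV (Dim.m + 1)) M]
  [IsManifold 𝓘(ℝ, EV (Dim.m + 1)) ∞ M]
  [CompactSpace M] [T2Space M] [ConnectedSpace M] {g : RMetric (EV (Dim.m + 1)) M} [Nonempty (Fr g)]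
  {hN : NegCurvature g} {m : M} {I : (geoA hN m).In3 (jA (npc_of_neg hN) m)} {r₀ t₁ χ : ℝ}
  (hc : H76.Geo.Cst I r₀ t₁ χ) (o : Mt (sys g (npc_of_neg hN)) m)
  {D : MDat g ((horFlows g).Φ 0)}
  (C : H618.Conn (geoInL hc (rieA hN m) o) (ukL hc o D).U)

include C in
/-- **all the structures at one base point**, with the entropy -/
theorem exists_suiteH {h : ℝ} (hh : 0 < h) (R : RDat D h)
    (hX : GeoX (geoInL hc (rieA hN m) o))
    (hO : ∀ S : Suite (hc.leaf o) (EV (Dim.m + 1)), S.A.h = h → H618.Conn S.I S.M.U →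
      (∀ x v, D.lam * ‖v‖ ^ 2 ≤ inner ℝ (S.M.U x v) v) →
      (∀ x v, inner ℝ (S.M.U x v) v ≤ D.Lam * ‖v‖ ^ 2) →
      H662.Calib (hc.leaf o) S.A → NuB S.A) :
    Nonempty (BSuite D R ((sys g (npc_of_neg hN)).e m (ofMt _ _ o)) (Dk (npc_of_neg hN) m)
      (Xt g (npc_of_neg hN) m) ((geoA hN m).Bnd o)) := by
  obtain ⟨A, hAh, hAs⟩ := exists_areaL hc o C hh R
  obtain ⟨f, hf⟩ := H892.exists_frame g ((sys g (npc_of_neg hN)).e m (ofMt _ _ o))
  set x₀ : Xt g (npc_of_neg hN) m := PB.mk (ofMt _ _ o) f hf.symm with hx₀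
  have hft : (geoA hN m).ft x₀ = o := rfl
  have hU : ∀ x, C.metr.U x = H618.cl (D.U (frm x)) := fun x => rfl
  have hcal : H662.Calib (hc.leaf o) A :=
    H709.calibR (geoInL hc (rieA hN m) o) (over_leaf hc o) R hU C.metr_hess hAs
      (D_le_of hX A) (b_base hc o hft)
  refine ⟨⟨hc.leaf o, A, hAh, hO (suiteOf hc o C R hX A hAs x₀) hAh C (metr_lo hc o C)
    (metr_hi hc o C) hcal, ?_⟩⟩
  have h1 := H546.mass_le ((horFlows g).hor 0) (over_leaf hc o) (geoInL hc (rieA hN m) o) R hU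
    C.metr_hess hAs (link_frm hc o) (b_base hc o hft)
  have h2 : (frm x₀).pt = (sys g (npc_of_neg hN)).e m (ofMt _ _ o) := hf
  rw [h2] at h1
  rwa [two_pow_sphm]

end Suit

variable {M : Type} [TopologicalSpace M] [ChartedSpace (EV (Dim.m + 1)) M]
  [IsManifold 𝓘(ℝ, EV (Dim.m + 1)) ∞ M]
  [CompactSpace M] [T2Space M] [ConnectedSpace M] {g : RMetric (EV (Dim.m + 1)) M}

/-- **the top, from the logic only**, with the entropy -/
theorem core_of_caseH [Nonempty (Fr g)] [MeasurableSpace M] [BorelSpace M]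
    (hN : NegCurvature g) {φ : ℝ → UT g → UT g} (hφ : IsGeoFlow g φ) {μ : Measure M}
    {m : Measure (UT g)} (hμ : IsRiemVol g μ) (hm : IsLiouville g μ m)
    (heq : ksEntropy m (φ 1) = topEntropy (φ 1)) (D : MDat g ((horFlows g).Φ 0))
    (hO : ∀ (m₀ : M) (F : Full hN D m₀)
      (o : Mt (sys g (npc_of_neg hN)) m₀) (S : Suite (F.hc.leaf o) (EV (Dim.m + 1))),
        S.A.h = (topEntropy (φ 1)).toReal → H618.Conn S.I S.M.U →
        (∀ x v, D.lam * ‖v‖ ^ 2 ≤ inner ℝ (S.M.U x v) v) →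
        (∀ x v, inner ℝ (S.M.U x v) v ≤ D.Lam * ‖v‖ ^ 2) →
        H662.Calib (F.hc.leaf o) S.A → NuB S.A) :
    ∃ κ, ConstCurvature g κ := by
  refine core_of_bounds hN hφ hμ hm heq D ?_ (fun R p => ?_)
  · obtain ⟨f⟩ := ‹Nonempty (Fr g)›
    obtain ⟨F⟩ := exists_full hN D f.pt
    obtain ⟨ν₀, -, h⟩ := H348.hopfAC_model hN f.pt F.hc
      (toMt (sys g (npc_of_neg hN)) f.pt 0) D hφ hμ hm
    exact F.exists_rdat hφ hμ hm heq _ h
  · obtain ⟨F⟩ := exists_full hN D p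
    have hh := (exists_psi_N3 ((horFlows g).hor 0) D hN hφ hμ hm heq).1
    obtain ⟨S⟩ := exists_suiteH F.hc (toMt (sys g (npc_of_neg hN)) p 0) (F.C _) hh R (F.X _)
      (hO p F _)
    have h1 := S.bound
    have h2 : (sys g (npc_of_neg hN)).e p (ofMt _ _ (toMt (sys g (npc_of_neg hN)) p 0)) = p :=
      (sys g (npc_of_neg hN)).zero p
    rwa [h2] at h1

/-- **Core**, from the logic, in the dimension `Dim.m + 1`, for any condition on the rates and the
entropy. -/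
theorem core_of_logicH {Q : ℝ → ℝ → ℝ → Prop} (hL : LogicH Q) [MeasurableSpace M] [BorelSpace M]
    (g : RMetric (EV (Dim.m + 1)) M) (hN : NegCurvature g)
    (φ : ℝ → P207.UT g → P207.UT g) (μ : Measure M) (m : Measure (P207.UT g))
    (hφ : P207.IsGeoFlow g φ) (hμ : P207.IsRiemVol g μ) (hm : P207.IsLiouville g μ m)
    (heq : P207.ksEntropy m (φ 1) = P207.topEntropy (φ 1))
    (hK : 0 < (P207.topEntropy (φ 1)).toReal → ∃ lam Lam : ℝ, 0 < lam ∧ lam ≤ Lam ∧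
      Q lam Lam (P207.topEntropy (φ 1)).toReal ∧
      ∀ (f : Fr g) (x : Fin Dim.m → ℝ),
        lam ^ 2 * (x ⬝ᵥ x) ≤ x ⬝ᵥ (Vale.Agent.P207.Q.H130.Km g f *ᵥ x) ∧
        x ⬝ᵥ (Vale.Agent.P207.Q.H130.Km g f *ᵥ x) ≤ Lam ^ 2 * (x ⬝ᵥ x)) :
    ∃ κ, ConstCurvature g κ := by
  obtain ⟨hsc, hne, -⟩ := Vale.Agent.P207.H582.exists_setting hφ hμ hm
  obtain ⟨lam₀, Lam₀, hl₀, hle₀, hb₀⟩ :=
    Vale.Agent.P207.H832.N4.exists_Km_neg (P207F.negCurvature_iff.2 hN)
  obtain ⟨D₀, -, -⟩ := exists_MDat_of hl₀ hle₀ hb₀ hφ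
  have hh := (exists_psi_N3 ((horFlows g).hor 0) D₀ hN hφ hμ hm heq).1
  obtain ⟨lam, Lam, hl, hle, hq, hb⟩ := hK hh
  obtain ⟨D, hD1, hD2⟩ := exists_MDat_of hl hle hb hφ
  refine core_of_caseH hN hφ hμ hm heq D (fun m₀ F o S hSh hC hlo hhi hcal => ?_)
  rw [hD1] at hlo
  rw [hD2] at hhi
  exact hL _ S hC lam Lam hl hle (by rw [hSh]; exact hq) hlo hhi hcal

end Vale.Agent.P207.N4
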