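import Vale.Agent.P207.N4.Geo.FinalH
import Vale.Agent.P207.N4.Geo.RelK
import Vale.Agent.P207.H118.RDefs

/-!
# P207: constant curvature from the logic, for a pointwise pinching condition

`LogicK` : the statement of the logic, if the eigenvalues of the Jacobi operator satisfy a relative
bound in each frame. `core_of_logicK`, `core_of_point` : constant curvature from the logic.
-/

open scoped Manifold ContDiff ENNReal Topology Matrix
open Bundle MeasureTheory Set Filter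

set_option maxSynthPendingDepth 3
set_option linter.unusedSectionVars false

noncomputable section

namespace Vale.Agent.P207.N4

open Vale.Agent.P207.N3

variable [Dim]

/-- The statement of the logic, for a relative bound of the Jacobi operator in each frame. -/
def LogicK : Prop :=
  ∀ {Γ X B V : Type} [Group Γ] [MetricSpace X] [ProperSpace X] [MulAction Γ X]
    [IsIsometricSMul Γ X] [TopologicalSpace B] [CompactSpace B] [T2Space B] [MulAction Γ B]
    [ContinuousConstSMul Γ B] [MeasurableSpace B] [BorelSpace B]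
    [NormedAddCommGroup V] [NormedSpace ℝ V] [FiniteDimensional ℝ V]
    (L : Leaf Γ X B) (S : Suite L V) (_ : H618.Conn S.I S.M.U) (a b : ℝ),
    0 < a → a ≤ b →
    (∀ x v, a * ‖v‖ ^ 2 ≤ inner ℝ (S.M.U x v) v) →
    (∀ x v, inner ℝ (S.M.U x v) v ≤ b * ‖v‖ ^ 2) →
    (∀ x v, a ^ 2 * ‖v‖ ^ 2 ≤ -inner ℝ (S.M.K x v) v ∧
      -inner ℝ (S.M.K x v) v ≤ b ^ 2 * ‖v‖ ^ 2) →
    Continuous S.M.K → ∀ ρ : ℝ, 1 ≤ ρ → ((Dim.m : ℝ) - 1) * (ρ ^ 2 - 2) < ρ →
    RelK S.M (ρ ^ 2) → H662.Calib L S.A → NuB S.A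

open Vale.Agent.P255 (RMetric Npc coefIn Gam Riem)
open Vale.Agent.P207.N4.Q Vale.Agent.P207.Q Vale.Agent.P207.Q.H130 Vale.Agent.P207.Q.H892
open Vale.Agent.P207F (ConstCurvature VecPinched PointPinched EntropyPinched)
open Vale.Agent.P207.Q.H717 (secc)
open H465 (Deck PB Mt toMt ofMt Xt homeoMt)
open H156 (geoA Dk fl co jA)
open H607 (geoInL rieA)

section Suit

variable {M : Type} [TopologicalSpace M] [ChartedSpace (EV (Dim.m + 1)) M]
  [IsManifold 𝓘(ℝ, EV (Dim.m + 1)) ∞ M]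
  [CompactSpace M] [T2Space M] [ConnectedSpace M] {g : RMetric (EV (Dim.m + 1)) M} [Nonempty (Fr g)]
  {hN : NegCurvature g} {m : M} {I : (geoA hN m).In3 (jA (npc_of_neg hN) m)} {r₀ t₁ χ : ℝ}
  (hc : H76.Geo.Cst I r₀ t₁ χ) (o : Mt (sys g (npc_of_neg hN)) m)
  {D : MDat g ((horFlows g).Φ 0)}
  (C : H618.Conn (geoInL hc (rieA hN m) o) (ukL hc o D).U)

theorem metr_K_dot (x : Xt g (npc_of_neg hN) m) (v : E2) :
    -inner ℝ (C.metr.K x v) v = v.ofLp ⬝ᵥ (Km g (frm x) *ᵥ v.ofLp) := by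
  rw [show C.metr.K x = H618.cl (-Km g (frm x)) from rfl, H618.inner_cl, Matrix.neg_mulVec,
    dotProduct_neg, neg_neg]

theorem metr_K_cont : Continuous C.metr.K := by
  have h1 : C.metr.K = fun x : Xt g (npc_of_neg hN) m => H618.cl (-Km g (frm x)) := rfl
  rw [h1]
  refine H618.continuous_cl fun i j => ?_
  have h2 : Continuous fun x : Xt g (npc_of_neg hN) m => -Km g (frm x) :=
    (H832.N4.continuous_KmM.comp (over_leaf hc o).cont).neg
  exact (continuous_apply j).comp ((continuous_apply i).comp h2)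

include C in
/-- **all the structures at one base point**, with the entropy and the Jacobi operator -/
theorem exists_suiteK {h : ℝ} (hh : 0 < h) (R : RDat D h)
    (hX : GeoX (geoInL hc (rieA hN m) o))
    (hO : ∀ S : Suite (hc.leaf o) (EV (Dim.m + 1)), S.A.h = h → H618.Conn S.I S.M.U →
      (∀ x v, D.lam * ‖v‖ ^ 2 ≤ inner ℝ (S.M.U x v) v) →
      (∀ x v, inner ℝ (S.M.U x v) v ≤ D.Lam * ‖v‖ ^ 2) →
      Continuous S.M.K →
      (∀ x, ∃ f : Fr g, ∀ v : E2,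
        -inner ℝ (S.M.K x v) v = v.ofLp ⬝ᵥ (Km g f *ᵥ v.ofLp)) →
      H662.Calib (hc.leaf o) S.A → NuB S.A) :
    Nonempty (BSuite D R ((sys g (npc_of_neg hN)).e m (ofMt _ _ o)) (Dk (npc_of_neg hN) m)
      (Xt g (npc_of_neg hN) m) ((geoA hN m).Bnd o)) := by
  obtain ⟨A, hAh, hAs⟩ := exists_areaL hc o C hh R
  obtain ⟨f, hf⟩ := H892.exists_frame g ((sys g (npc_of_neg hN)).e m (ofMt _ _ o))
  set x₀ : Xt g (npc_of_neg hN) m := PB.mk (ofMt _ _ o) f hf.symm with hx₀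
  have hft : (geoA hN m).ft x₀ = o := rfl
  have hU : ∀ x, C.metr.U x = H618.cl (D.U (frm x)) := fun x => rfl
  have hcal : H662.Calib (hc.leaf o) A :=
    H709.calibR (geoInL hc (rieA hN m) o) (over_leaf hc o) R hU C.metr_hess hAs
      (D_le_of hX A) (b_base hc o hft)
  refine ⟨⟨hc.leaf o, A, hAh, hO (suiteOf hc o C R hX A hAs x₀) hAh C (metr_lo hc o C)
    (metr_hi hc o C) (metr_K_cont hc o C) (fun x => ⟨frm x, metr_K_dot hc o C x⟩) hcal, ?_⟩⟩
  have h1 := H546.mass_le ((horFlows g).hor 0) (over_leaf hc o) (geoInL hc (rieA hN m) o) R hU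
    C.metr_hess hAs (link_frm hc o) (b_base hc o hft)
  have h2 : (frm x₀).pt = (sys g (npc_of_neg hN)).e m (ofMt _ _ o) := hf
  rw [h2] at h1
  rwa [two_pow_sphm]

end Suit

variable {M : Type} [TopologicalSpace M] [ChartedSpace (EV (Dim.m + 1)) M]
  [IsManifold 𝓘(ℝ, EV (Dim.m + 1)) ∞ M]
  [CompactSpace M] [T2Space M] [ConnectedSpace M] {g : RMetric (EV (Dim.m + 1)) M}

/-- **the top, from the logic only**, with the entropy and the Jacobi operator -/
theorem core_of_caseK [Nonempty (Fr g)] [MeasurableSpace M] [BorelSpace M]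
    (hN : NegCurvature g) {φ : ℝ → UT g → UT g} (hφ : IsGeoFlow g φ) {μ : Measure M}
    {m : Measure (UT g)} (hμ : IsRiemVol g μ) (hm : IsLiouville g μ m)
    (heq : ksEntropy m (φ 1) = topEntropy (φ 1)) (D : MDat g ((horFlows g).Φ 0))
    (hO : ∀ (m₀ : M) (F : Full hN D m₀)
      (o : Mt (sys g (npc_of_neg hN)) m₀) (S : Suite (F.hc.leaf o) (EV (Dim.m + 1))),
        S.A.h = (topEntropy (φ 1)).toReal → H618.Conn S.I S.M.U →
        (∀ x v, D.lam * ‖v‖ ^ 2 ≤ inner ℝ (S.M.U x v) v) →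
        (∀ x v, inner ℝ (S.M.U x v) v ≤ D.Lam * ‖v‖ ^ 2) →
        Continuous S.M.K →
        (∀ x, ∃ f : Fr g, ∀ v : E2,
          -inner ℝ (S.M.K x v) v = v.ofLp ⬝ᵥ (Km g f *ᵥ v.ofLp)) →
        H662.Calib (F.hc.leaf o) S.A → NuB S.A) :
    ∃ κ, ConstCurvature g κ := by
  refine core_of_bounds hN hφ hμ hm heq D ?_ (fun R p => ?_)
  · obtain ⟨f⟩ := ‹Nonempty (Fr g)›
    obtain ⟨F⟩ := exists_full hN D f.pt
    obtain ⟨ν₀, -, h⟩ := H348.hopfAC_model hN f.pt F.hc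
      (toMt (sys g (npc_of_neg hN)) f.pt 0) D hφ hμ hm
    exact F.exists_rdat hφ hμ hm heq _ h
  · obtain ⟨F⟩ := exists_full hN D p
    have hh := (exists_psi_N3 ((horFlows g).hor 0) D hN hφ hμ hm heq).1
    obtain ⟨S⟩ := exists_suiteK F.hc (toMt (sys g (npc_of_neg hN)) p 0) (F.C _) hh R (F.X _)
      (hO p F _)
    have h1 := S.bound
    have h2 : (sys g (npc_of_neg hN)).e p (ofMt _ _ (toMt (sys g (npc_of_neg hN)) p 0)) = p :=
      (sys g (npc_of_neg hN)).zero p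
    rwa [h2] at h1

/-- **Core**, from the logic, in the dimension `Dim.m + 1`, for a relative bound of the Jacobi
operator in each frame. -/
theorem core_of_logicK (hL : LogicK) [MeasurableSpace M] [BorelSpace M]
    (g : RMetric (EV (Dim.m + 1)) M) (hN : NegCurvature g)
    (φ : ℝ → P207.UT g → P207.UT g) (μ : Measure M) (m : Measure (P207.UT g))
    (hφ : P207.IsGeoFlow g φ) (hμ : P207.IsRiemVol g μ) (hm : P207.IsLiouville g μ m)
    (heq : P207.ksEntropy m (φ 1) = P207.topEntropy (φ 1)) {ρ : ℝ} (hρ : 1 ≤ ρ)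
    (hρm : ((Dim.m : ℝ) - 1) * (ρ ^ 2 - 2) < ρ)
    (hK : ∀ f : Fr g, ∃ c : ℝ, 0 < c ∧ ∀ x : Fin Dim.m → ℝ,
      c * (x ⬝ᵥ x) ≤ x ⬝ᵥ (Km g f *ᵥ x) ∧ x ⬝ᵥ (Km g f *ᵥ x) ≤ ρ ^ 2 * c * (x ⬝ᵥ x)) :
    ∃ κ, ConstCurvature g κ := by
  obtain ⟨hsc, hne, -⟩ := Vale.Agent.P207.H582.exists_setting hφ hμ hm
  obtain ⟨lam, Lam, hl, hle, hb⟩ :=
    Vale.Agent.P207.H832.N4.exists_Km_neg (P207F.negCurvature_iff.2 hN)
  obtain ⟨D, hD1, hD2⟩ := exists_MDat_of hl hle hb hφ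
  refine core_of_caseK hN hφ hμ hm heq D (fun m₀ F o S hSh hC hlo hhi hcont hKf hcal => ?_)
  rw [hD1] at hlo
  rw [hD2] at hhi
  have hn : ∀ v : E2, ‖v‖ ^ 2 = v.ofLp ⬝ᵥ v.ofLp := fun v => by
    rw [← real_inner_self_eq_norm_sq, H618.inner_eq_dot]
  refine hL _ S hC lam Lam hl hle hlo hhi (fun x v => ?_) hcont ρ hρ hρm (fun x => ?_) hcal
  · obtain ⟨f, hf⟩ := hKf x
    rw [hf v, hn v]
    exact hb f v.ofLp
  · obtain ⟨f, hf⟩ := hKf x
    obtain ⟨c, hc0, hc⟩ := hK f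
    refine ⟨c, hc0, fun v => ?_⟩
    rw [hf v, hn v]
    exact hc v.ofLp

end Vale.Agent.P207.N4

namespace Vale.Agent.P207.N4

open Vale.Agent.P255 (RMetric coefIn Gam Riem)
open Vale.Agent.P207.Q (Fr)
open Vale.Agent.P207.Q.H130 (Km)
open Vale.Agent.P207.Q.H717 (secc)
open Vale.Agent.P207F (ConstCurvature VecPinched PointPinched)

section Km

variable {m : ℕ} {M : Type} [TopologicalSpace M] [ChartedSpace (EV (m + 1)) M]
  [IsManifold 𝓘(ℝ, EV (m + 1)) ∞ M] {g : RMetric (EV (m + 1)) M}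

/-- the relative bound of the matrix `Km` -/
theorem Km_rel {A : ℝ} (h : VecPinched A g) (f : Fr g) {x y : Fin m → ℝ} (hx : x ≠ 0)
    (hy : y ≠ 0) :
    (x ⬝ᵥ (Km g f *ᵥ x)) * (y ⬝ᵥ y) ≤ A * ((y ⬝ᵥ (Km g f *ᵥ y)) * (x ⬝ᵥ x)) := by
  have h2 := h f.pt _ (mem_chart_target _ _) _ _ _ (H832.N4.li_sum f hx) (H832.N4.li_sum f hy)
  rw [H832.N4.gram_sum, H832.N4.gram_sum] at h2
  rw [H832.N4.Km_quad, H832.N4.Km_quad]
  unfold secc
  linarith

/-- the relative bound in each frame -/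
theorem exists_Km_rel (hm : 0 < m) {A : ℝ} (hN : P207F.NegCurvature g) (h : VecPinched A g)
    (f : Fr g) : ∃ c : ℝ, 0 < c ∧ ∀ x : Fin m → ℝ,
      c * (x ⬝ᵥ x) ≤ x ⬝ᵥ (Km g f *ᵥ x) ∧ x ⬝ᵥ (Km g f *ᵥ x) ≤ A * c * (x ⬝ᵥ x) := by
  have hne : ({x : Fin m → ℝ | x ⬝ᵥ x = 1}).Nonempty :=
    ⟨Pi.single ⟨0, hm⟩ 1, by simp [dotProduct, Pi.single_apply]⟩
  have hcont : Continuous fun y : Fin m → ℝ => y ⬝ᵥ (Km g f *ᵥ y) :=
    Continuous.dotProduct continuous_id
      (Continuous.matrix_mulVec continuous_const continuous_id)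
  obtain ⟨y, hy, hmin⟩ := (H832.N4.compact_sphere m).exists_isMinOn hne hcont.continuousOn
  have hy1 : y ⬝ᵥ y = 1 := hy
  have hy0 : y ≠ 0 := by
    rintro rfl
    simp at hy1
  have hpos : 0 < y ⬝ᵥ (Km g f *ᵥ y) := by
    have h2 := hN f.pt _ (mem_chart_target _ _) _ _ (H832.N4.li_sum f hy0)
    rw [H832.N4.Km_quad]
    unfold secc
    linarith
  refine ⟨y ⬝ᵥ (Km g f *ᵥ y), hpos, fun x => ⟨?_, ?_⟩⟩
  · have h1 := H832.N4.le_of_sphere (a := -Km g f) (c := -(y ⬝ᵥ (Km g f *ᵥ y))) (fun z hz => by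
      rw [Matrix.neg_mulVec, dotProduct_neg, neg_le_neg_iff]
      exact hmin hz) x
    rw [Matrix.neg_mulVec, dotProduct_neg] at h1
    linarith
  · rcases eq_or_ne x 0 with rfl | hx
    · simp
    · have h1 := Km_rel h f hx hy0
      rw [hy1, mul_one] at h1
      linarith

end Km

/-- **Core** for the pointwise pinched metrics, from the logic, in the dimension `Dim.m + 1`. -/
theorem core_of_point [Dim] (hL : LogicK) {M : Type} [TopologicalSpace M]
    [ChartedSpace (EV (Dim.m + 1)) M]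
    [IsManifold 𝓘(ℝ, EV (Dim.m + 1)) ∞ M] [CompactSpace M] [T2Space M] [ConnectedSpace M]
    [MeasurableSpace M] [BorelSpace M] (g : RMetric (EV (Dim.m + 1)) M)
    (hp : PointPinched g)
    (φ : ℝ → P207.UT g → P207.UT g) (μ : Measure M) (m : Measure (P207.UT g))
    (hφ : P207.IsGeoFlow g φ) (hμ : P207.IsRiemVol g μ) (hm : P207.IsLiouville g μ m)
    (heq : P207.ksEntropy m (φ 1) = P207.topEntropy (φ 1)) : ∃ κ, ConstCurvature g κ := by
  obtain ⟨hN, ρ, hρ, hρn, hR⟩ := hp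
  push_cast at hρn
  have hm2 := Dim.two_le
  exact core_of_logicK hL g (P207F.negCurvature_iff.1 hN) φ μ m hφ hμ hm heq hρ
    (by linarith) fun f => exists_Km_rel (by omega) hN hR f

/-- **Core** for the pointwise pinched metrics, from the logic, in all dimensions `n ≥ 3`. -/
theorem core_of_point_n {n : ℕ} (hn : 3 ≤ n) (hL : ∀ [Dim], LogicK)
    {M : Type} [TopologicalSpace M] [ChartedSpace (EV n) M]
    [IsManifold 𝓘(ℝ, EV n) ∞ M] [CompactSpace M] [T2Space M] [ConnectedSpace M]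
    [MeasurableSpace M] [BorelSpace M] (g : RMetric (EV n) M)
    (hp : PointPinched g)
    (φ : ℝ → P207.UT g → P207.UT g) (μ : Measure M) (m : Measure (P207.UT g))
    (hφ : P207.IsGeoFlow g φ) (hμ : P207.IsRiemVol g μ) (hm : P207.IsLiouville g μ m)
    (heq : P207.ksEntropy m (φ 1) = P207.topEntropy (φ 1)) : ∃ κ, ConstCurvature g κ := by
  obtain ⟨k, rfl⟩ : ∃ k, n = k + 1 := ⟨n - 1, by omega⟩
  have h2 : 2 ≤ k := by omega
  exact @core_of_point (Dim.mk k h2) (@hL (Dim.mk k h2)) M _ _ _ _ _ _ _ _ g hp φ μ m hφ hμ hm heq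

end Vale.Agent.P207.N4

namespace Vale.Agent.P207F.QN

open Vale.Agent.P255 (RMetric innerAt coefIn Gam Riem IsGeo)
open Vale.Agent.P207F

variable {n : ℕ} {M : Type} [TopologicalSpace M] [CompactSpace M] [T2Space M] [ConnectedSpace M]
  [ChartedSpace (EV n) M] [IsManifold 𝓘(ℝ, EV n) ∞ M] [MeasurableSpace M] [BorelSpace M]

/-- the final statement for the class `EntropyPinched g ∨ PointPinched g`, from the logic -/
theorem final_entropy_point (hn : 3 ≤ n)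
    (hH : ∀ [P207.N4.Dim], P207.N4.LogicH (P207.N4.HQ P207.N4.Dim.m))
    (hK : ∀ [P207.N4.Dim], P207.N4.LogicK) :
    (∀ g : RMetric (EV n) M, WellDefined (stdB n) g) ∧
    ∀ g : RMetric (EV n) M, EntropyPinched g ∨ PointPinched g →
      NegCurvature g ∧ hLiou (stdB n) g ≤ hTop g ∧
      (hLiou (stdB n) g = hTop g ↔ LocSymmetric g) ∧
      (hLiou (stdB n) g = hTop g ↔ ∃ κ : ℝ, 0 < κ ∧ ConstCurvature g κ) :=
  final_n (P := fun g : RMetric (EV n) M => EntropyPinched g ∨ PointPinched g) (by omega)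
    (fun _ h => h.elim (fun h => neg_of_entropy h) fun h => h.1)
    (fun g hp φ μ m hφ hμ hm heq => hp.elim
      (fun hp => P207.N4.core_of_entropy_n hn hH g hp φ μ m hφ hμ hm heq)
      fun hp => P207.N4.core_of_point_n hn hK g hp φ μ m hφ hμ hm heq)

end Vale.Agent.P207F.QN
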