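import Vale.Agent.P207.N4.Dim
import Vale.Agent.P207.N4.Geo.Core2
import Vale.Agent.P207.N4.Geo.LogicD
import Vale.Agent.P207.H832.N4.UR
import Vale.Agent.P207.H566N.FinalN
import Vale.Agent.P207.Bridge

/-!
# P207, line N4: constant curvature from the equality of the entropies, in all dimensions
-/

open scoped Manifold ContDiff ENNReal Topology Matrix
open Bundle MeasureTheory Set Filter

set_option maxSynthPendingDepth 3
set_option linter.unusedSectionVars false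

noncomputable section

namespace Vale.Agent.P207.N4

open Vale.Agent.P207.N3

open Vale.Agent.P255 (RMetric)
open Vale.Agent.P207.Q (Fr)
open Vale.Agent.P207F (ConstCurvature)

/-- **Core**, from the logic, in the dimension `Dim.m + 1`, for any condition on the rates. -/
theorem core_of_logicQ [Dim] {Q : ℝ → ℝ → Prop} (hL : LogicQ Q) {M : Type} [TopologicalSpace M]
    [ChartedSpace (EV (Dim.m + 1)) M]
    [IsManifold 𝓘(ℝ, EV (Dim.m + 1)) ∞ M] [CompactSpace M] [T2Space M] [ConnectedSpace M]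
    [MeasurableSpace M] [BorelSpace M] (g : RMetric (EV (Dim.m + 1)) M)
    (hN : NegCurvature g)
    (hK : ∃ lam Lam : ℝ, 0 < lam ∧ lam ≤ Lam ∧ Q lam Lam ∧
      ∀ (f : Fr g) (x : Fin Dim.m → ℝ),
        lam ^ 2 * (x ⬝ᵥ x) ≤ x ⬝ᵥ (Vale.Agent.P207.Q.H130.Km g f *ᵥ x) ∧
        x ⬝ᵥ (Vale.Agent.P207.Q.H130.Km g f *ᵥ x) ≤ Lam ^ 2 * (x ⬝ᵥ x))
    (φ : ℝ → P207.UT g → P207.UT g) (μ : Measure M) (m : Measure (P207.UT g))
    (hφ : P207.IsGeoFlow g φ) (hμ : P207.IsRiemVol g μ) (hm : P207.IsLiouville g μ m)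
    (heq : P207.ksEntropy m (φ 1) = P207.topEntropy (φ 1)) : ∃ κ, ConstCurvature g κ := by
  obtain ⟨hsc, hne, -⟩ := Vale.Agent.P207.H582.exists_setting hφ hμ hm
  obtain ⟨lam, Lam, hl, hle, hq, hb⟩ := hK
  obtain ⟨D, hD1, hD2⟩ := exists_MDat_of hl hle hb hφ
  refine core_of_case hN hφ hμ hm heq D (fun m₀ F o S hC hlo hhi hcal => ?_)
  rw [hD1] at hlo
  rw [hD2] at hhi
  exact hL _ S hC lam Lam hl hle hq hlo hhi hcal

/-- **Core**, from the logic, in the dimension `Dim.m + 1`. -/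
theorem core_of_logic [Dim] (hL : LogicN4) {M : Type} [TopologicalSpace M]
    [ChartedSpace (EV (Dim.m + 1)) M]
    [IsManifold 𝓘(ℝ, EV (Dim.m + 1)) ∞ M] [CompactSpace M] [T2Space M] [ConnectedSpace M]
    [MeasurableSpace M] [BorelSpace M] (g : RMetric (EV (Dim.m + 1)) M)
    (hp : P207F.FourNinthsPinched g)
    (φ : ℝ → P207.UT g → P207.UT g) (μ : Measure M) (m : Measure (P207.UT g))
    (hφ : P207.IsGeoFlow g φ) (hμ : P207.IsRiemVol g μ) (hm : P207.IsLiouville g μ m)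
    (heq : P207.ksEntropy m (φ 1) = P207.topEntropy (φ 1)) : ∃ κ, ConstCurvature g κ :=
  core_of_logicQ hL.toQ g (P207F.negCurvature_iff.1 (P207F.QN.neg_of_pinched hp))
    (Vale.Agent.P207.H832.N4.exists_Km_49 (m := Dim.m) (g := g) hp) φ μ m hφ hμ hm heq

/-- **Core**, from the logic, in all dimensions `n ≥ 3`. -/
theorem core_of_logic_n {n : ℕ} (hn : 3 ≤ n) (hL : ∀ [Dim], LogicN4) {M : Type}
    [TopologicalSpace M] [ChartedSpace (EV n) M]
    [IsManifold 𝓘(ℝ, EV n) ∞ M] [CompactSpace M] [T2Space M] [ConnectedSpace M]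
    [MeasurableSpace M] [BorelSpace M] (g : RMetric (EV n) M)
    (hp : P207F.FourNinthsPinched g)
    (φ : ℝ → P207.UT g → P207.UT g) (μ : Measure M) (m : Measure (P207.UT g))
    (hφ : P207.IsGeoFlow g φ) (hμ : P207.IsRiemVol g μ) (hm : P207.IsLiouville g μ m)
    (heq : P207.ksEntropy m (φ 1) = P207.topEntropy (φ 1)) : ∃ κ, ConstCurvature g κ := by
  obtain ⟨k, rfl⟩ : ∃ k, n = k + 1 := ⟨n - 1, by omega⟩
  have h2 : 2 ≤ k := by omega
  exact @core_of_logic (Dim.mk k h2) (@hL (Dim.mk k h2)) M _ _ _ _ _ _ _ _ g hp φ μ m hφ hμ hm heq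

end Vale.Agent.P207.N4
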